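import Mathlib

/-!
# SCH-ALG-HART : algebraic Hartogs (Matsumura, Theorem 11.5)

Mathlib only, pure commutative algebra.  `R` noetherian integrally closed domain, `K = Frac R`.

(1) `alg_height_one_of_colon`: a prime of the form `q = (b : c)`, `b ≠ 0`, has height one.
  Localise at `q` (`S = R_q` is local, noetherian, integrally closed, `m = q S = (b : c)` in `S`).
  `(c/b) m ⊆ S`.  If `(c/b) m ⊆ m` then `c/b` is integral over `S` (`m` is a finitely generated
  faithful module: `isIntegral_of_smul_mem_submodule`), so `c / b ∈ S`, i.e. `1 ∈ (b : c) = m`: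
  absurd.  Hence `(c/b) m = S`, so `m = (b/c) S` is principal and `height m ≤ 1`
  (`Ideal.height_le_one_of_isPrincipal_of_mem_minimalPrimes` or Krull); `height ≥ 1` as `b ∈ q`,
  `b ≠ 0`.  Compare `IsDiscreteValuationRing.TFAE`, `maximalIdeal_isPrincipal_of_isDedekindDomain`
  whose proof contains the same trick.
(2) `alg_hartogs`: `f = a / b`.  If `f ∉ R`, then `a ∉ (b)`, the class of `a` in `R/(b)` is non
  zero, so its annihilator `(b : a)` is contained in an associated prime `q = (b : r a)`
  (`exists_le_isAssociatedPrime_of_isNoetherianRing`); `q` has height one by (1); by hypothesis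
  `f s = a'` with `s ∉ q`, so `s a = a' b`, `s ∈ (b : a) ⊆ q`: absurd.
-/

set_option autoImplicit false

namespace Claimed.Agent.R242

theorem alg_height_one_of_colon {R : Type*} [CommRing R] [IsDomain R] [IsNoetherianRing R]
    [IsIntegrallyClosed R] (b c : R) (hb : b ≠ 0) (q : Ideal R) [q.IsPrime]
    (hq : ∀ r : R, r ∈ q ↔ b ∣ r * c) : q.height = 1 := by
  classical
  have hbq : b ∈ q := (hq b).2 (Dvd.intro c rfl)
  have hbc : ¬ b ∣ c := by
    intro h
    have h1 : (1 : R) ∈ q := (hq 1).2 (by rwa [one_mul])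
    exact (Ideal.IsPrime.ne_top inferInstance) ((Ideal.eq_top_iff_one q).2 h1)
  refine le_antisymm ?_ ?_
  swap
  · refine (Ideal.one_le_height_span_singleton_of_mem_nonZeroDivisors
      (mem_nonZeroDivisors_of_ne_zero hb)).trans (Ideal.height_mono ?_)
    rwa [Ideal.span_singleton_le_iff_mem]
  -- there are `x ∈ q`, `s ∉ q` with `s * b = x * c`
  have key : ∃ x ∈ q, ∃ s, s ∉ q ∧ s * b = x * c := by
    by_contra hcon
    push Not at hcon
    apply hbc
    let K := FractionRing R
    let y : K := algebraMap R K c / algebraMap R K b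
    have hbK : algebraMap R K b ≠ 0 := by
      simpa using hb
    have hint : IsIntegral R y := by
      refine isIntegral_of_smul_mem_submodule (M := K) (Submodule.map (Algebra.linearMap R K) q) ?_
        ((IsNoetherian.noetherian q).map _) y ?_
      · intro h
        have : algebraMap R K b ∈ Submodule.map (Algebra.linearMap R K) q := ⟨b, hbq, rfl⟩
        rw [h, Submodule.mem_bot] at this
        exact hbK this
      · rintro _ ⟨r, hr, rfl⟩
        obtain ⟨s, hs⟩ := (hq r).1 hr
        refine ⟨s, ?_, ?_⟩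
        · by_contra hsq
          exact hcon r hr s hsq (by rw [hs, mul_comm])
        · show algebraMap R K s = y • algebraMap R K r
          rw [smul_eq_mul]
          show algebraMap R K s = algebraMap R K c / algebraMap R K b * algebraMap R K r
          rw [div_mul_eq_mul_div, eq_div_iff hbK, ← map_mul, ← map_mul, mul_comm c r, hs, mul_comm]
    obtain ⟨z, hz⟩ := IsIntegrallyClosed.isIntegral_iff.1 hint
    refine ⟨z, ?_⟩
    have : algebraMap R K c = algebraMap R K (b * z) := by
      rw [map_mul, hz]
      show algebraMap R K c = algebraMap R K b * (algebraMap R K c / algebraMap R K b)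
      rw [mul_div_cancel₀ _ hbK]
    exact IsFractionRing.injective R K this
  obtain ⟨x, hxq, s, hsq, hsx⟩ := key
  refine Ideal.height_le_one_of_isPrincipal_of_mem_minimalPrimes (Ideal.span {x}) q ?_
  refine ⟨⟨inferInstance, by rwa [Ideal.span_singleton_le_iff_mem]⟩, ?_⟩
  rintro p ⟨hp, hxp⟩ hpq r hr
  rw [Ideal.span_singleton_le_iff_mem] at hxp
  obtain ⟨r', hr'⟩ := (hq r).1 hr
  have h1 : s * r = x * r' := by
    apply mul_left_cancel₀ hb
    calc b * (s * r) = (s * b) * r := by ring
      _ = x * (r * c) := by rw [hsx]; ring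
      _ = b * (x * r') := by rw [hr']; ring
  have h2 : s * r ∈ p := by rw [h1]; exact p.mul_mem_right _ hxp
  rcases hp.mem_or_mem h2 with h | h
  · exact absurd (hpq h) hsq
  · exact h

theorem alg_hartogs {R K : Type*} [CommRing R] [IsDomain R] [IsNoetherianRing R]
    [IsIntegrallyClosed R] [Field K] [Algebra R K] [IsFractionRing R K] (f : K)
    (h : ∀ q : Ideal R, q.IsPrime → q.height = 1 →
      ∃ a s : R, s ∉ q ∧ f * algebraMap R K s = algebraMap R K a) :
    ∃ a : R, algebraMap R K a = f := by
  classical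
  obtain ⟨a, b, hb, rfl⟩ := IsFractionRing.div_surjective (A := R) f
  have hb0 : b ≠ 0 := nonZeroDivisors.ne_zero hb
  have hbK : algebraMap R K b ≠ 0 := by
    simpa using hb0
  by_cases hdvd : b ∣ a
  · obtain ⟨z, rfl⟩ := hdvd
    exact ⟨z, by rw [map_mul, mul_div_cancel_left₀ _ hbK]⟩
  exfalso
  have hne : (Ideal.Quotient.mk (Ideal.span {b}) a) ≠ 0 := by
    rw [Ne, Ideal.Quotient.eq_zero_iff_mem, Ideal.mem_span_singleton]
    exact hdvd
  obtain ⟨q, hqa, hle⟩ := exists_le_isAssociatedPrime_of_isNoetherianRing R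
    (M := R ⧸ Ideal.span {b}) (Ideal.Quotient.mk (Ideal.span {b}) a) hne
  rw [isAssociatedPrime_iff] at hqa
  obtain ⟨hqp, y, hy⟩ := hqa
  obtain ⟨c, rfl⟩ := Ideal.Quotient.mk_surjective y
  have hmem : ∀ (d r : R), r ∈ (⊥ : Submodule R (R ⧸ Ideal.span {b})).colon
      {Ideal.Quotient.mk (Ideal.span {b}) d} ↔ b ∣ r * d := by
    intro d r
    rw [Submodule.mem_colon_singleton, Submodule.mem_bot, Algebra.smul_def,
      Ideal.Quotient.algebraMap_eq, ← map_mul, Ideal.Quotient.eq_zero_iff_mem,
      Ideal.mem_span_singleton]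
  have hq1 : q.height = 1 := alg_height_one_of_colon b c hb0 q (fun r => by rw [hy]; exact hmem c r)
  obtain ⟨a', s, hs, hfs⟩ := h q hqp hq1
  apply hs
  apply hle
  rw [hmem]
  refine ⟨a', ?_⟩
  apply IsFractionRing.injective R K
  rw [map_mul, map_mul, ← hfs]
  field_simp

end Claimed.Agent.R242
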