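import Claimed.Agent.R242.Sch.AlgPres

/-!
# SCH-ALG-LOC : localisation and translation of a chart

Mathlib only, no scheme, no paper.

* `kc_localize`: `A = ℂ[gen]`, `g ∈ A`, `g ≠ 0`: `A[1/g] ⊆ K` is again a chart with the SAME
  coordinates `gen (inl i)`.  ROUTE A: `kc_pres` gives `P`; let `A' := Algebra.adjoin ℂ (range gen ∪
  {g⁻¹})` (or `Localization.Away` mapped into `K`), `IsLocalization.Away g A'`;
  `(SubmersivePresentation.localizationAway A' g).comp P` is a submersive presentation of `A'` with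
  variables `Unit ⊕ (Fin n ⊕ Fin c)`, `map = Sum.elim (inl ∘ _) (inr ∘ P.map)`; apply `kc_of_pres`
  with `y i = inr (inl i)`.  ROUTE B: by hand, `c' = c + 1`, new relation `G * X_last - 1`.
* `kc_translate`: `gen' (inl i) = gen (inl i) - c i`, `gen' (inr k) = gen (inr k)`;
  `rel' = τ (rel)`, `jinv' = τ jinv` where `τ = aeval (fun v => X v + C (c' v))` is the translation
  automorphism (`c' = Sum.elim c 0`); `aeval gen' (τ P) = aeval gen P`, `pderiv v (τ P) = τ (pderiv v P)`,
  `RingHom.map_det`; `τ` is bijective with inverse the opposite translation.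
-/

set_option autoImplicit false

namespace Claimed.Agent.R242

open MvPolynomial

variable {n : ℕ} {K : Type} [Field K] [Algebra ℂ K]

/-! ### localisation -/

section localize

variable {c : ℕ}

/-- the old variables among the new ones (the new variable is `inr 0`) -/
def kclEmb (n c : ℕ) : Fin n ⊕ Fin c → Fin n ⊕ Fin (c + 1) := Sum.map id Fin.succ

theorem kclEmb_injective (n c : ℕ) : Function.Injective (kclEmb n c) :=
  Function.Injective.sumMap Function.injective_id (Fin.succ_injective c)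

theorem kclEmb_ne (v : Fin n ⊕ Fin c) : kclEmb n c v ≠ Sum.inr 0 := by
  rcases v with i | k
  · exact Sum.inl_ne_inr
  · intro h
    exact Fin.succ_ne_zero k (Sum.inr_injective h)

/-- the new relations -/
noncomputable def kclRel (rel : Fin c → MvPolynomial (Fin n ⊕ Fin c) ℂ)
    (G : MvPolynomial (Fin n ⊕ Fin c) ℂ) : Fin (c + 1) → MvPolynomial (Fin n ⊕ Fin (c + 1)) ℂ :=
  Fin.cons (rename (kclEmb n c) G * X (Sum.inr 0) - 1) fun k => rename (kclEmb n c) (rel k)

/-- the new generators -/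
def kclGen (gen : Fin n ⊕ Fin c → K) (u : K) : Fin n ⊕ Fin (c + 1) → K :=
  Sum.elim (fun i => gen (Sum.inl i)) (Fin.cons u fun k => gen (Sum.inr k))

omit [Field K] [Algebra ℂ K] in
theorem kclGen_comp (gen : Fin n ⊕ Fin c → K) (u : K) : kclGen gen u ∘ kclEmb n c = gen := by
  funext v
  rcases v with i | k
  · rfl
  · rfl

theorem kclGen_aeval (gen : Fin n ⊕ Fin c → K) (u : K) (P : MvPolynomial (Fin n ⊕ Fin c) ℂ) :
    aeval (kclGen gen u) (rename (kclEmb n c) P) = aeval gen P := by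
  rw [aeval_rename, kclGen_comp]

theorem kcl_pderiv_zero (P : MvPolynomial (Fin n ⊕ Fin c) ℂ) :
    pderiv (Sum.inr 0) (rename (kclEmb n c) P) = 0 := by
  classical
  apply pderiv_eq_zero_of_notMem_vars
  intro h
  have h1 := vars_rename (kclEmb n c) P h
  rw [Finset.mem_image] at h1
  obtain ⟨v, -, hv⟩ := h1
  exact kclEmb_ne v hv

theorem kcl_pderiv_succ (P : MvPolynomial (Fin n ⊕ Fin c) ℂ) (j : Fin c) :
    pderiv (Sum.inr j.succ) (rename (kclEmb n c) P) = rename (kclEmb n c) (pderiv (Sum.inr j) P) :=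
  pderiv_rename (kclEmb_injective n c) (Sum.inr j) P

theorem kcl_det (rel : Fin c → MvPolynomial (Fin n ⊕ Fin c) ℂ)
    (G : MvPolynomial (Fin n ⊕ Fin c) ℂ) :
    (Matrix.of fun i j => pderiv (Sum.inr j) (kclRel rel G i)).det =
      rename (kclEmb n c) G *
        rename (kclEmb n c) (Matrix.of fun i j => pderiv (Sum.inr j) (rel i)).det := by
  rw [Matrix.det_succ_column_zero, Fin.sum_univ_succ, Finset.sum_eq_zero, add_zero]
  · have e1 : (Matrix.of fun i j => pderiv (Sum.inr j) (kclRel rel G i)) 0 0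
        = rename (kclEmb n c) G := by
      simp [kclRel, kcl_pderiv_zero]
    have e2 : (Matrix.of fun i j => pderiv (Sum.inr j) (kclRel rel G i)).submatrix
        (Fin.succAbove 0) Fin.succ
        = (rename (kclEmb n c) : _ →ₐ[ℂ] _).mapMatrix
          (Matrix.of fun i j => pderiv (Sum.inr j) (rel i)) := by
      ext i j
      simp [kclRel, kcl_pderiv_succ]
    rw [e1, e2, ← AlgHom.map_det]
    simp
  · intro i _
    have e1 : (Matrix.of fun i j => pderiv (Sum.inr j) (kclRel rel G i)) i.succ 0 = 0 := by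
      simp [kclRel, kcl_pderiv_zero]
    rw [e1, mul_zero, zero_mul]

theorem kcl_rename_mem (rel : Fin c → MvPolynomial (Fin n ⊕ Fin c) ℂ)
    (G : MvPolynomial (Fin n ⊕ Fin c) ℂ) {P : MvPolynomial (Fin n ⊕ Fin c) ℂ}
    (hP : P ∈ Ideal.span (Set.range rel)) :
    rename (kclEmb n c) P ∈ Ideal.span (Set.range (kclRel rel G)) := by
  have h1 : Ideal.map (rename (kclEmb n c) : _ →ₐ[ℂ] _) (Ideal.span (Set.range rel))
      ≤ Ideal.span (Set.range (kclRel rel G)) := by
    rw [Ideal.map_span, Ideal.span_le]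
    rintro _ ⟨_, ⟨k, rfl⟩, rfl⟩
    exact Ideal.subset_span ⟨k.succ, by simp [kclRel]⟩
  exact h1 (Ideal.mem_map_of_mem _ hP)

theorem kcl_new_mem (rel : Fin c → MvPolynomial (Fin n ⊕ Fin c) ℂ)
    (G : MvPolynomial (Fin n ⊕ Fin c) ℂ) :
    rename (kclEmb n c) G * X (Sum.inr 0) - 1 ∈ Ideal.span (Set.range (kclRel rel G)) :=
  Ideal.subset_span ⟨0, by simp [kclRel]⟩

/-- clearing the denominators -/
theorem kcl_normal (G : MvPolynomial (Fin n ⊕ Fin c) ℂ)
    (I : Ideal (MvPolynomial (Fin n ⊕ Fin (c + 1)) ℂ))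
    (hI : rename (kclEmb n c) G * X (Sum.inr 0) - 1 ∈ I)
    (Q : MvPolynomial (Fin n ⊕ Fin (c + 1)) ℂ) :
    ∃ (N : ℕ) (P : MvPolynomial (Fin n ⊕ Fin c) ℂ),
      rename (kclEmb n c) G ^ N * Q - rename (kclEmb n c) P ∈ I := by
  induction Q using MvPolynomial.induction_on with
  | C a => exact ⟨0, C a, by simp⟩
  | add Q₁ Q₂ h₁ h₂ =>
    obtain ⟨N₁, P₁, h₁⟩ := h₁
    obtain ⟨N₂, P₂, h₂⟩ := h₂
    refine ⟨N₁ + N₂, G ^ N₂ * P₁ + G ^ N₁ * P₂, ?_⟩
    have e : rename (kclEmb n c) G ^ (N₁ + N₂) * (Q₁ + Q₂)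
        - rename (kclEmb n c) (G ^ N₂ * P₁ + G ^ N₁ * P₂)
        = rename (kclEmb n c) G ^ N₂ * (rename (kclEmb n c) G ^ N₁ * Q₁ - rename (kclEmb n c) P₁)
          + rename (kclEmb n c) G ^ N₁ *
            (rename (kclEmb n c) G ^ N₂ * Q₂ - rename (kclEmb n c) P₂) := by
      simp only [map_add, map_mul, map_pow]
      ring
    rw [e]
    exact I.add_mem (I.mul_mem_left _ h₁) (I.mul_mem_left _ h₂)
  | mul_X Q v h =>
    obtain ⟨N, P, h⟩ := h
    have hold : ∀ w : Fin n ⊕ Fin c, ∃ (N : ℕ) (P : MvPolynomial (Fin n ⊕ Fin c) ℂ),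
        rename (kclEmb n c) G ^ N * (Q * X (kclEmb n c w)) - rename (kclEmb n c) P ∈ I := by
      intro w
      refine ⟨N, P * X w, ?_⟩
      have e : rename (kclEmb n c) G ^ N * (Q * X (kclEmb n c w)) - rename (kclEmb n c) (P * X w)
          = (rename (kclEmb n c) G ^ N * Q - rename (kclEmb n c) P) * X (kclEmb n c w) := by
        simp only [map_mul, rename_X]
        ring
      rw [e]
      exact I.mul_mem_right _ h
    rcases v with i | j
    · exact hold (Sum.inl i)
    · induction j using Fin.cases with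
      | zero =>
        refine ⟨N + 1, P, ?_⟩
        have e : rename (kclEmb n c) G ^ (N + 1) * (Q * X (Sum.inr 0)) - rename (kclEmb n c) P
            = rename (kclEmb n c) G ^ N * Q * (rename (kclEmb n c) G * X (Sum.inr 0) - 1)
              + (rename (kclEmb n c) G ^ N * Q - rename (kclEmb n c) P) := by
          ring
        rw [e]
        exact I.add_mem (I.mul_mem_left _ hI) h
      | succ k => exact hold (Sum.inr k)

end localize

theorem kc_localize (C : Chart n) (gen : Fin n ⊕ Fin C.c → K)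
    (hker : ∀ P : MvPolynomial (Fin n ⊕ Fin C.c) ℂ, aeval gen P = 0 ↔ P ∈ C.ideal)
    (G : MvPolynomial (Fin n ⊕ Fin C.c) ℂ) (hG : aeval gen G ≠ 0) :
    ∃ (C' : Chart n) (gen' : Fin n ⊕ Fin C'.c → K),
      (∀ Q : MvPolynomial (Fin n ⊕ Fin C'.c) ℂ, aeval gen' Q = 0 ↔ Q ∈ C'.ideal) ∧
      (∀ a : K, (∃ Q : MvPolynomial (Fin n ⊕ Fin C'.c) ℂ, aeval gen' Q = a) ↔
        ∃ (k : ℕ) (P : MvPolynomial (Fin n ⊕ Fin C.c) ℂ), a * aeval gen G ^ k = aeval gen P) ∧
      ∀ i : Fin n, gen' (Sum.inl i) = gen (Sum.inl i) := by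
  set ρ : MvPolynomial (Fin n ⊕ Fin C.c) ℂ →ₐ[ℂ] MvPolynomial (Fin n ⊕ Fin (C.c + 1)) ℂ :=
    rename (kclEmb n C.c) with hρ
  set t : MvPolynomial (Fin n ⊕ Fin (C.c + 1)) ℂ := X (Sum.inr 0) with ht
  set I := Ideal.span (Set.range (kclRel C.rel G)) with hI
  set g := aeval gen G with hg
  set gen' := kclGen gen g⁻¹ with hgen'
  have hnew : ρ G * t - 1 ∈ I := kcl_new_mem C.rel G
  have hjac : (ρ C.jinv * t) * (Matrix.of fun i j => pderiv (Sum.inr j) (kclRel C.rel G i)).det - 1
      ∈ I := by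
    rw [kcl_det]
    have e : (ρ C.jinv * t) * (ρ G * ρ (Matrix.of fun i j => pderiv (Sum.inr j) (C.rel i)).det) - 1
        = ρ (C.jinv * (Matrix.of fun i j => pderiv (Sum.inr j) (C.rel i)).det - 1) * (ρ G * t)
          + (ρ G * t - 1) := by
      simp only [map_sub, map_mul, map_one]
      ring
    rw [e]
    exact I.add_mem (I.mul_mem_right _ (kcl_rename_mem C.rel G C.jac_unit)) hnew
  have hgt : aeval gen' t = g⁻¹ := by
    rw [ht, aeval_X]
    rfl
  have hρa : ∀ P, aeval gen' (ρ P) = aeval gen P := kclGen_aeval gen g⁻¹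
  -- the ideal is killed
  have hkill : ∀ Q ∈ I, aeval gen' Q = 0 := by
    intro Q hQ
    have hle : I ≤ RingHom.ker (aeval (R := ℂ) gen') := by
      rw [hI, Ideal.span_le]
      rintro _ ⟨k, rfl⟩
      rw [SetLike.mem_coe, RingHom.mem_ker]
      induction k using Fin.cases with
      | zero =>
        have : kclRel C.rel G 0 = ρ G * t - 1 := by simp [kclRel, hρ, ht]
        rw [this, map_sub, map_mul, hρa, hgt, map_one, mul_inv_cancel₀ hG, sub_self]
      | succ k =>
        have : kclRel C.rel G k.succ = ρ (C.rel k) := by simp [kclRel, hρ]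
        rw [this, hρa, hker]
        exact Ideal.subset_span ⟨k, rfl⟩
    exact hle hQ
  refine ⟨⟨C.c + 1, kclRel C.rel G, ρ C.jinv * t, hjac⟩, gen', ?_, ?_, fun i => rfl⟩
  · intro Q
    show aeval gen' Q = 0 ↔ Q ∈ I
    refine ⟨fun hQ => ?_, hkill Q⟩
    obtain ⟨N, P, hNP⟩ := kcl_normal G I hnew Q
    have h1 := hkill _ hNP
    rw [map_sub, map_mul, hQ, mul_zero, zero_sub, neg_eq_zero, hρa, hker] at h1
    have h2 : ρ G ^ N * Q ∈ I := by
      have := I.add_mem hNP (kcl_rename_mem C.rel G h1)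
      rwa [sub_add_cancel] at this
    have h3 : (ρ G * t) ^ N - 1 ∈ I := by
      obtain ⟨w, hw⟩ := sub_dvd_pow_sub_pow (ρ G * t) 1 N
      rw [one_pow] at hw
      rw [hw]
      exact I.mul_mem_right _ hnew
    have e : Q = t ^ N * (ρ G ^ N * Q) - ((ρ G * t) ^ N - 1) * Q := by
      ring
    rw [e]
    exact I.sub_mem (I.mul_mem_left _ h2) (I.mul_mem_right _ h3)
  · intro a
    constructor
    · rintro ⟨Q, rfl⟩
      obtain ⟨N, P, hNP⟩ := kcl_normal G I hnew Q
      have h1 := hkill _ hNP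
      rw [map_sub, map_mul, map_pow, hρa, hρa, sub_eq_zero] at h1
      exact ⟨N, P, by rw [← h1, mul_comm]⟩
    · rintro ⟨k, P, hP⟩
      refine ⟨ρ P * t ^ k, ?_⟩
      rw [map_mul, map_pow, hρa, hgt, ← hP, mul_assoc, ← mul_pow, mul_inv_cancel₀ hG, one_pow,
        mul_one]

/-! ### translation -/

section translate

variable {σ : Type}

/-- the translation automorphism `X v ↦ X v + c v` -/
noncomputable def kclTr (c : σ → ℂ) : MvPolynomial σ ℂ →ₐ[ℂ] MvPolynomial σ ℂ :=
  aeval fun v => X v + C (c v)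

theorem kclTr_X (c : σ → ℂ) (v : σ) : kclTr c (X v) = X v + C (c v) := by
  simp [kclTr]

theorem kclTr_C (c : σ → ℂ) (a : ℂ) : kclTr c (C a) = C a := by
  simp [kclTr]

theorem kclTr_kclTr (c d : σ → ℂ) (h : ∀ v, c v + d v = 0) (P : MvPolynomial σ ℂ) :
    kclTr c (kclTr d P) = P := by
  have e : (kclTr c).comp (kclTr d) = AlgHom.id ℂ _ := by
    apply MvPolynomial.algHom_ext
    intro v
    rw [AlgHom.comp_apply, kclTr_X, map_add, kclTr_X, kclTr_C, AlgHom.id_apply, add_assoc, ← C_add,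
      h v, C_0, add_zero]
  exact AlgHom.congr_fun e P

theorem kclTr_pderiv (c : σ → ℂ) (v : σ) (P : MvPolynomial σ ℂ) :
    pderiv v (kclTr c P) = kclTr c (pderiv v P) := by
  classical
  induction P using MvPolynomial.induction_on with
  | C a => rw [kclTr_C, pderiv_C, map_zero]
  | add p q hp hq => rw [map_add, map_add, map_add, map_add, hp, hq]
  | mul_X p w hp =>
    rw [map_mul, pderiv_mul, pderiv_mul, hp, map_add, map_mul, map_mul, kclTr_X, map_add, pderiv_C,
      add_zero, pderiv_X]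
    congr 2
    by_cases hw : w = v
    · subst hw
      simp
    · simp [hw]

theorem kclTr_aeval (c : σ → ℂ) (gen : σ → K) (P : MvPolynomial σ ℂ) :
    aeval (fun v => gen v - algebraMap ℂ K (c v)) (kclTr c P) = aeval gen P := by
  have e : (aeval (R := ℂ) fun v => gen v - algebraMap ℂ K (c v)).comp (kclTr c) = aeval gen := by
    apply MvPolynomial.algHom_ext
    intro v
    rw [AlgHom.comp_apply, kclTr_X, map_add, aeval_X, aeval_X, aeval_C, sub_add_cancel]
  exact AlgHom.congr_fun e P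

theorem kclTr_mem_iff (c : σ → ℂ) {ι : Type} (r : ι → MvPolynomial σ ℂ) (Q : MvPolynomial σ ℂ) :
    Q ∈ Ideal.span (Set.range fun k => kclTr c (r k)) ↔
      kclTr (fun v => - c v) Q ∈ Ideal.span (Set.range r) := by
  have e1 : Ideal.span (Set.range fun k => kclTr c (r k))
      = Ideal.map (kclTr c) (Ideal.span (Set.range r)) := by
    rw [Ideal.map_span, ← Set.range_comp]
    rfl
  have e2 : Ideal.span (Set.range r)
      = Ideal.map (kclTr fun v => - c v) (Ideal.span (Set.range fun k => kclTr c (r k))) := by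
    rw [Ideal.map_span, ← Set.range_comp]
    congr 2
    funext k
    exact (kclTr_kclTr _ _ (fun v => by ring) (r k)).symm
  constructor
  · intro h
    rw [e2]
    exact Ideal.mem_map_of_mem _ h
  · intro h
    rw [e1, ← kclTr_kclTr c (fun v => - c v) (fun v => by ring) Q]
    exact Ideal.mem_map_of_mem _ h

end translate

theorem kc_translate (C : Chart n) (gen : Fin n ⊕ Fin C.c → K)
    (hker : ∀ P : MvPolynomial (Fin n ⊕ Fin C.c) ℂ, aeval gen P = 0 ↔ P ∈ C.ideal)
    (c : Fin n → ℂ) :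
    ∃ (C' : Chart n) (gen' : Fin n ⊕ Fin C'.c → K),
      (∀ Q : MvPolynomial (Fin n ⊕ Fin C'.c) ℂ, aeval gen' Q = 0 ↔ Q ∈ C'.ideal) ∧
      (∀ a : K, (∃ Q : MvPolynomial (Fin n ⊕ Fin C'.c) ℂ, aeval gen' Q = a) ↔
        ∃ P : MvPolynomial (Fin n ⊕ Fin C.c) ℂ, aeval gen P = a) ∧
      ∀ i : Fin n, gen' (Sum.inl i) = gen (Sum.inl i) - algebraMap ℂ K (c i) := by
  set d : Fin n ⊕ Fin C.c → ℂ := Sum.elim c 0 with hd
  have hjac : kclTr d C.jinv *
      (Matrix.of fun i j => pderiv (Sum.inr j) (kclTr d (C.rel i))).det - 1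
      ∈ Ideal.span (Set.range fun k => kclTr d (C.rel k)) := by
    have e : (Matrix.of fun i j => pderiv (Sum.inr j) (kclTr d (C.rel i)))
        = (kclTr d).mapMatrix (Matrix.of fun i j => pderiv (Sum.inr j) (C.rel i)) := by
      ext i j
      simp [kclTr_pderiv]
    rw [e, ← AlgHom.map_det, ← map_mul, ← map_one (kclTr d), ← map_sub, kclTr_mem_iff,
      kclTr_kclTr _ _ (fun v => by ring)]
    exact C.jac_unit
  refine ⟨⟨C.c, fun k => kclTr d (C.rel k), kclTr d C.jinv, hjac⟩,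
    fun v => gen v - algebraMap ℂ K (d v), ?_, ?_, ?_⟩
  · intro Q
    show _ ↔ Q ∈ Ideal.span (Set.range fun k => kclTr d (C.rel k))
    rw [kclTr_mem_iff]
    rw [← kclTr_kclTr d (fun v => - d v) (fun v => by ring) Q, kclTr_aeval, hker,
      kclTr_kclTr d (fun v => - d v) (fun v => by ring) Q]
    rfl
  · intro a
    constructor
    · rintro ⟨Q, rfl⟩
      refine ⟨kclTr (fun v => - d v) Q, ?_⟩
      rw [← kclTr_aeval d, kclTr_kclTr d (fun v => - d v) (fun v => by ring) Q]
    · rintro ⟨P, rfl⟩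
      exact ⟨kclTr d P, kclTr_aeval d gen P⟩
  · intro i
    rfl

end Claimed.Agent.R242
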