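import Claimed.Agent.R242.Sch.AlgPres

/-!
# SCH-ALG-NORMAL : a standard smooth `ℂ`-algebra which is a domain is integrally closed

Mathlib only, no scheme, no paper.  KEY TOOL:
`TensorProduct.toIntegralClosure_bijective_of_smooth [Algebra.Smooth R S] :
   Function.Bijective (TensorProduct.toIntegralClosure R S B)`
(`Mathlib/RingTheory/Smooth/IntegralClosure.lean`: smooth base change commutes with integral closure).

ROUTE for `alg_normal_of_stdSmooth`.
1. `Algebra.IsStandardSmoothOfRelativeDimension.exists_etale_mvPolynomial` gives
   `g : MvPolynomial (Fin n) ℂ →ₐ[ℂ] A` etale.  `P := MvPolynomial (Fin n) ℂ`, `algebraize [g.toRingHom]`.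
   `P` is a UFD, hence integrally closed; `F := FractionRing P`.
2. `A` is flat over `P` and nontrivial, so `P → A` is injective and the nonzero elements of `P` are
   nonzero in `A`.
3. `T := A ⊗[P] F` is the localisation of `A` at the image of `P \ 0`, hence a domain; it is etale over the
   field `F` (base change), hence finite over `F`
   (`Algebra.FormallyUnramified.finite_of_free` / `Algebra.Etale` over a field,
   `Algebra.FormallyEtale.iff_exists_algEquiv_prod`), hence a field; so `T` is a fraction field of `A`.
4. By the key tool with `R = P`, `S = A`, `B = F`: every element of `T` integral over `A` is in the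
   image of `A ⊗[P] integralClosure P F = A ⊗[P] P = A`.  So `A` is integrally closed in its fraction field `T`
   (`isIntegrallyClosed_iff T`).
-/

set_option autoImplicit false

namespace Claimed.Agent.R242

open MvPolynomial TensorProduct

/-- an etale algebra over an integrally closed domain which is a domain is integrally closed -/
theorem alg_normal_of_etale (P A : Type) [CommRing P] [IsDomain P] [IsIntegrallyClosed P]
    [CommRing A] [IsDomain A] [Algebra P A] [Algebra.Etale P A] : IsIntegrallyClosed A := by
  let F := FractionRing P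
  let T := A ⊗[P] F
  let M : Submonoid A := Algebra.algebraMapSubmonoid A (nonZeroDivisors P)
  have hloc : IsLocalization M T := inferInstance
  have hM : M ≤ nonZeroDivisors A := by
    rintro _ ⟨p, hp, rfl⟩
    have hp : p ≠ 0 := mem_nonZeroDivisors_iff_ne_zero.1 hp
    rw [mem_nonZeroDivisors_iff_ne_zero]
    intro h0
    rw [Algebra.algebraMap_eq_smul_one, smul_eq_zero] at h0
    rcases h0 with h0 | h0
    · exact hp h0
    · exact one_ne_zero h0
  have hdom : IsDomain T := IsLocalization.isDomain_of_le_nonZeroDivisors T hM
  have hinj : Function.Injective (algebraMap A T) := IsLocalization.injective T hM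
  -- `T` is a field
  let T' := F ⊗[P] A
  let e : T ≃+* T' := (Algebra.TensorProduct.comm P A F).toRingEquiv
  have hdom' : IsDomain T' := e.symm.toMulEquiv.isDomain T
  have hfin : Module.Finite F T' := Algebra.FormallyUnramified.finite_of_free F T'
  have hfld' : IsField T' := isField_of_isIntegral_of_isField' (R := F) (Field.toIsField F)
  have hfld : IsField T := MulEquiv.isField hfld' e.toMulEquiv
  have hfrac : IsFractionRing A T := by
    refine IsLocalization.of_le (M := M) (nonZeroDivisors A) hM ?_
    intro a ha
    have ha0 : algebraMap A T a ≠ 0 := by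
      intro h0
      exact (mem_nonZeroDivisors_iff_ne_zero.1 ha) (hinj (by rw [h0, map_zero]))
    obtain ⟨b, hb⟩ := hfld.mul_inv_cancel ha0
    exact IsUnit.of_mul_eq_one b hb
  rw [isIntegrallyClosed_iff T]
  intro x hx
  obtain ⟨s, hs⟩ := (TensorProduct.toIntegralClosure_bijective_of_smooth (R := P) (S := A)
    (B := F)).2 ⟨x, hx⟩
  have key : ∀ s : A ⊗[P] integralClosure P F,
      ∃ a : A, ((TensorProduct.toIntegralClosure P A F s : integralClosure A T) : T) = a ⊗ₜ 1 := by
    intro s
    induction s with
    | zero => exact ⟨0, by simp⟩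
    | tmul a y =>
      obtain ⟨p, hp⟩ := IsIntegrallyClosed.isIntegral_iff.1 y.2
      refine ⟨p • a, ?_⟩
      have : ((TensorProduct.toIntegralClosure P A F (a ⊗ₜ y) : integralClosure A T) : T) =
          a ⊗ₜ (y : F) := by
        simp [TensorProduct.toIntegralClosure]
      rw [this, ← hp, Algebra.algebraMap_eq_smul_one, TensorProduct.tmul_smul,
        TensorProduct.smul_tmul']
    | add s t hs ht =>
      obtain ⟨a, ha⟩ := hs
      obtain ⟨b, hb⟩ := ht
      refine ⟨a + b, ?_⟩
      rw [map_add, TensorProduct.add_tmul, ← ha, ← hb]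
      rfl
  obtain ⟨a, ha⟩ := key s
  refine ⟨a, ?_⟩
  rw [hs] at ha
  rw [Algebra.TensorProduct.algebraMap_apply]
  exact ha.symm


theorem alg_normal_of_stdSmooth (n : ℕ) (A : Type) [CommRing A] [IsDomain A] [Algebra ℂ A]
    [Algebra.IsStandardSmoothOfRelativeDimension n ℂ A] : IsIntegrallyClosed A := by
  obtain ⟨g, hg⟩ := Algebra.IsStandardSmoothOfRelativeDimension.exists_etale_mvPolynomial n ℂ A
  algebraize [g.toRingHom]
  exact alg_normal_of_etale (MvPolynomial (Fin n) ℂ) A

/-- the ring of a chart is integrally closed in `K` -/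
theorem kc_normal {n : ℕ} {K : Type} [Field K] [Algebra ℂ K] {C : Chart n}
    {gen : Fin n ⊕ Fin C.c → K} (h : IsKChart C gen) (a : K)
    (ha : IsIntegral (aeval (R := ℂ) gen).range a) : a ∈ (aeval (R := ℂ) gen).range := by
  obtain ⟨P, -, -, -⟩ := kc_pres C gen h.ker
  have hsm : Algebra.IsStandardSmoothOfRelativeDimension n ℂ (aeval (R := ℂ) gen).range :=
    ⟨_, _, inferInstance, inferInstance, P, by simp [Algebra.Presentation.dimension]⟩
  have hic : IsIntegrallyClosed (aeval (R := ℂ) gen).range :=
    alg_normal_of_stdSmooth n (aeval (R := ℂ) gen).range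
  have hfr : IsFractionRing (aeval (R := ℂ) gen).range K := by
    refine IsFractionRing.of_field _ K fun z => ?_
    obtain ⟨p, q, hq, e⟩ := h.frac z
    refine ⟨⟨aeval gen p, p, rfl⟩, ⟨aeval gen q, q, rfl⟩, ?_⟩
    show z = aeval gen p / aeval gen q
    rw [eq_div_iff hq, e]
  obtain ⟨y, hy⟩ := IsIntegrallyClosed.isIntegral_iff.1 ha
  rw [← hy]
  exact y.2

end Claimed.Agent.R242
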