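import Claimed.Agent.R242.Sch.AlgPres

/-!
# SCH-ALG-OMEGA : Kähler differentials and the derivations `∂/∂z_j` of a chart

Mathlib only, no scheme, no paper.  `h : IsKChart C gen`, `A = ℂ[gen] = (aeval gen).range`, `K = Frac A`.

* `kc_omega_basis`: `d z_1, …, d z_n` (`z_i = gen (inl i)`) is a `K`-basis of `Ω[K⁄ℂ]`.
  ROUTE: `kc_pres` gives a submersive presentation `P` of `A` with `map = Sum.inr`;
  `Algebra.SubmersivePresentation.basisKaehlerOfIsCompl` (with `f = Sum.inl`; or `basisKaehler`) is an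
  `A`-basis of `Ω[A⁄ℂ]` consisting of the `D ℂ A (P.val (inl i))`; `K` is a localisation of `A`
  (`IsFractionRing A K` from `h.frac`), so `KaehlerDifferential.map ℂ ℂ A K` is a localised module /
  base change (`KaehlerDifferential.isLocalizedModule_map`, `isBaseChange_of_formallyEtale`);
  `Module.Basis.ofIsLocalizedModule` / `IsBaseChange.basis`; `KaehlerDifferential.map_D`.
* `kcDer h j` := `j`-th coordinate of `D`; the first two lemmas are then formal.
* `kcDer_range`: for `a ∈ A`, `D ℂ A a = ∑ a_j D ℂ A z_j` with `a_j ∈ A`; map it to `Ω[K⁄ℂ]`.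
-/

set_option autoImplicit false

noncomputable section

namespace Claimed.Agent.R242

open MvPolynomial KaehlerDifferential

variable {n : ℕ} {K : Type} [Field K] [Algebra ℂ K] {C : Chart n} {gen : Fin n ⊕ Fin C.c → K}

theorem kco_isFractionRing (h : IsKChart C gen) :
    IsFractionRing (aeval (R := ℂ) gen).range K := by
  refine IsFractionRing.of_field _ K fun z => ?_
  obtain ⟨P, Q, hQ, hz⟩ := h.frac z
  refine ⟨⟨aeval gen P, P, rfl⟩, ⟨aeval gen Q, Q, rfl⟩, ?_⟩
  change z = aeval gen P / aeval gen Q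
  rw [eq_div_iff hQ, hz]

/-- the strong form: the basis, with coordinates of `D a`, `a` in the ring of the chart, in that ring -/
theorem kco_basis (h : IsKChart C gen) :
    ∃ b : Module.Basis (Fin n) K Ω[K⁄ℂ], (∀ i, b i = D ℂ K (gen (Sum.inl i))) ∧
      ∀ a ∈ (aeval (R := ℂ) gen).range, ∀ j, b.coord j (D ℂ K a) ∈ (aeval (R := ℂ) gen).range := by
  obtain ⟨P, hval, -, hmap⟩ := kc_pres C gen h.ker
  have hfr := kco_isFractionRing h
  have hcompl : IsCompl (Set.range (Sum.inl : Fin n → Fin n ⊕ Fin C.c)) (Set.range P.map) := by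
    have : P.map = Sum.inr := funext hmap
    rw [this]
    exact Set.isCompl_range_inl_range_inr
  let b0 := P.basisKaehlerOfIsCompl Sum.inl_injective hcompl
  let b := b0.ofIsLocalizedModule K (nonZeroDivisors (aeval (R := ℂ) gen).range)
    (KaehlerDifferential.map ℂ ℂ (aeval (R := ℂ) gen).range K)
  refine ⟨b, fun i => ?_, fun a ha j => ?_⟩
  · rw [Module.Basis.ofIsLocalizedModule_apply,
      Algebra.SubmersivePresentation.basisKaehlerOfIsCompl_apply, KaehlerDifferential.map_D]
    congr 1
    exact hval _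
  · have h1 : D ℂ K a = KaehlerDifferential.map ℂ ℂ (aeval (R := ℂ) gen).range K
        (D ℂ (aeval (R := ℂ) gen).range ⟨a, ha⟩) := by
      rw [KaehlerDifferential.map_D]
      rfl
    rw [h1, Module.Basis.coord_apply, Module.Basis.ofIsLocalizedModule_repr_apply]
    exact (b0.repr _ j).2

theorem kc_omega_basis (h : IsKChart C gen) :
    ∃ b : Module.Basis (Fin n) K Ω[K⁄ℂ], ∀ i, b i = D ℂ K (gen (Sum.inl i)) := by
  obtain ⟨b, hb, -⟩ := kco_basis h
  exact ⟨b, hb⟩

/-- the basis `d z_i` -/
def kcBasis (h : IsKChart C gen) : Module.Basis (Fin n) K Ω[K⁄ℂ] :=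
  Classical.choose (kc_omega_basis h)

theorem kcBasis_apply (h : IsKChart C gen) (i : Fin n) :
    kcBasis h i = D ℂ K (gen (Sum.inl i)) :=
  Classical.choose_spec (kc_omega_basis h) i

/-- the derivation `∂/∂z_j` of `K` -/
def kcDer (h : IsKChart C gen) (j : Fin n) : Derivation ℂ K K :=
  ((kcBasis h).coord j).compDer (D ℂ K)

theorem kcDer_apply (h : IsKChart C gen) (j : Fin n) (f : K) :
    kcDer h j f = (kcBasis h).coord j (D ℂ K f) := rfl

theorem kcDer_coord (h : IsKChart C gen) (i j : Fin n) :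
    kcDer h j (gen (Sum.inl i)) = if i = j then 1 else 0 := by
  rw [kcDer_apply, ← kcBasis_apply h i, Module.Basis.coord_apply, Module.Basis.repr_self,
    Finsupp.single_apply]

theorem kcDer_D (h : IsKChart C gen) (f : K) :
    D ℂ K f = ∑ j, kcDer h j f • D ℂ K (gen (Sum.inl j)) := by
  conv_lhs => rw [← (kcBasis h).sum_repr (D ℂ K f)]
  refine Finset.sum_congr rfl fun j _ => ?_
  rw [kcBasis_apply, kcDer_apply, Module.Basis.coord_apply]

/-- `∂/∂z_j` preserves the ring of the chart -/
theorem kcDer_range (h : IsKChart C gen) (j : Fin n) {a : K}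
    (ha : a ∈ (aeval (R := ℂ) gen).range) : kcDer h j a ∈ (aeval (R := ℂ) gen).range := by
  obtain ⟨b, hb, hb'⟩ := kco_basis h
  have hbb : kcBasis h = b := Module.Basis.eq_of_apply_eq fun i => by rw [kcBasis_apply, hb]
  rw [kcDer_apply, hbb]
  exact hb' a ha j

end Claimed.Agent.R242

end

/-! equation lemmas of this file, cited once here (rule 6) -/
namespace Claimed.Agent.R242

theorem r242_eqcite_Sch_AlgOmega : True := by
  have := @Claimed.Agent.R242.kcBasis.eq_1
  have := @Claimed.Agent.R242.kcDer.eq_1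
  have := @Claimed.Agent.R242.kcDer.congr_simp
  trivial

end Claimed.Agent.R242
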