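import Claimed.Agent.R242.Sch.Defs

/-!
# SCH-ALG-PRES : `Chart` versus Mathlib's `Algebra.SubmersivePresentation`

Mathlib only, no scheme, no paper.  `K` a field over `ℂ`.

* `kc_pres`: a chart `(C, gen)` (only the kernel condition is used) gives a submersive
  presentation of the subalgebra `ℂ[gen] = (aeval gen).range` with variables `Fin n ⊕ Fin C.c`,
  relations `C.rel`, `map = Sum.inr`.  (`Algebra.Generators.ofSurjective` or by hand;
  `jacobian_eq_jacobiMatrix_det`, `jacobiMatrix_apply` (it is the TRANSPOSE of the matrix of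
  `Chart.jac_unit`: `Matrix.det_transpose`); `C.jac_unit` says that `aeval gen jinv` is an inverse of
  the jacobian.)
* `kc_of_pres`: conversely a submersive presentation `P` of `S`, an enumeration `y` of the variables
  which are not in the range of `P.map`, and an embedding `j : S → K` give a chart.
  (`c := Nat.card σ`, `σ ≃ Fin c`, `ι ≃ Fin n ⊕ Fin c`; `MvPolynomial.rename`,
  `SubmersivePresentation.reindex` may help.)
* `kc_exists_enum`: the enumeration exists when `P.dimension = n`.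
-/

set_option autoImplicit false

namespace Claimed.Agent.R242

open MvPolynomial

variable {n : ℕ} {K : Type} [Field K] [Algebra ℂ K]

theorem kc_pres (C : Chart n) (gen : Fin n ⊕ Fin C.c → K)
    (hker : ∀ P : MvPolynomial (Fin n ⊕ Fin C.c) ℂ, aeval gen P = 0 ↔ P ∈ C.ideal) :
    ∃ P : Algebra.SubmersivePresentation ℂ (aeval (R := ℂ) gen).range
        (Fin n ⊕ Fin C.c) (Fin C.c),
      (∀ v, ((P.val v : (aeval (R := ℂ) gen).range) : K) = gen v) ∧
      (∀ k, P.relation k = C.rel k) ∧ (∀ k, P.map k = Sum.inr k) := by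
  classical
  set A : Subalgebra ℂ K := (aeval (R := ℂ) gen).range with hA
  let val : Fin n ⊕ Fin C.c → A := fun v => ⟨gen v, ⟨X v, aeval_X gen v⟩⟩
  have hval : ∀ Q : MvPolynomial (Fin n ⊕ Fin C.c) ℂ, ((aeval val Q : A) : K) = aeval gen Q := by
    intro Q
    have := MvPolynomial.comp_aeval_apply (R := ℂ) val A.val Q
    simpa [val] using this
  have hsurj : Function.Surjective (aeval (R := ℂ) val) := by
    rintro ⟨a, Q, rfl⟩
    exact ⟨Q, Subtype.ext (hval Q)⟩
  have hzero : ∀ Q : MvPolynomial (Fin n ⊕ Fin C.c) ℂ, aeval val Q = 0 ↔ Q ∈ C.ideal := by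
    intro Q
    rw [← hker, ← hval, ZeroMemClass.coe_eq_zero]
  let G : Algebra.Generators ℂ A (Fin n ⊕ Fin C.c) := Algebra.Generators.ofSurjective val hsurj
  let P0 : Algebra.Presentation ℂ A (Fin n ⊕ Fin C.c) (Fin C.c) :=
    { toGenerators := G
      relation := C.rel
      span_range_relation_eq_ker := by
        ext Q
        rw [Algebra.Generators.ker_eq_ker_aeval_val, RingHom.mem_ker]
        exact (hzero Q).symm }
  let P1 : Algebra.PreSubmersivePresentation ℂ A (Fin n ⊕ Fin C.c) (Fin C.c) :=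
    { toPresentation := P0
      map := Sum.inr
      map_inj := Sum.inr_injective }
  have hmat : P1.jacobiMatrix = (Matrix.of fun i j => pderiv (Sum.inr j) (C.rel i)).transpose := by
    ext i j
    rw [Algebra.PreSubmersivePresentation.jacobiMatrix_apply]
    rfl
  have hunit : IsUnit P1.jacobian := by
    rw [Algebra.PreSubmersivePresentation.jacobian_eq_jacobiMatrix_det, hmat, Matrix.det_transpose,
      Algebra.Generators.algebraMap_apply]
    have h := (hzero _).2 C.jac_unit
    rw [map_sub, map_mul, map_one, sub_eq_zero] at h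
    exact IsUnit.of_mul_eq_one_right _ h
  exact ⟨{ toPreSubmersivePresentation := P1, jacobian_isUnit := hunit }, fun v => rfl, fun k => rfl,
    fun k => rfl⟩

/-- the normal form of `kc_of_pres`: variables `Fin n ⊕ Fin c`, `map = Sum.inr` -/
theorem kc_of_pres_aux {S : Type} [CommRing S] [Algebra ℂ S] {c : ℕ}
    (P : Algebra.SubmersivePresentation ℂ S (Fin n ⊕ Fin c) (Fin c)) (hmap : ∀ k, P.map k = Sum.inr k)
    (j : S →ₐ[ℂ] K) (hj : Function.Injective j) :
    ∃ (C : Chart n) (gen : Fin n ⊕ Fin C.c → K),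
      (∀ Q : MvPolynomial (Fin n ⊕ Fin C.c) ℂ, aeval gen Q = 0 ↔ Q ∈ C.ideal) ∧
      (∀ a : K, (∃ Q : MvPolynomial (Fin n ⊕ Fin C.c) ℂ, aeval gen Q = a) ↔ ∃ s : S, j s = a) ∧
      C.c = c ∧ ∀ i : Fin n, gen (Sum.inl i) = j (P.val (Sum.inl i)) := by
  classical
  obtain ⟨u, hu⟩ := P.jacobian_isUnit
  have hmat : P.jacobiMatrix = (Matrix.of fun i j => pderiv (Sum.inr j) (P.relation i)).transpose := by
    ext i j
    rw [Algebra.PreSubmersivePresentation.jacobiMatrix_apply, hmap]
    rfl
  have hmem : ∀ Q : MvPolynomial (Fin n ⊕ Fin c) ℂ,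
      aeval P.val Q = 0 ↔ Q ∈ Ideal.span (Set.range P.relation) := by
    intro Q
    rw [P.span_range_relation_eq_ker, Algebra.Generators.ker_eq_ker_aeval_val, RingHom.mem_ker]
  let C : Chart n :=
    { c := c
      rel := P.relation
      jinv := P.σ (↑u⁻¹ : S)
      jac_unit := by
        rw [← hmem, map_sub, map_mul, map_one, Algebra.Generators.aeval_val_σ, sub_eq_zero]
        have h2 : aeval P.val (Matrix.of fun i j => pderiv (Sum.inr j) (P.relation i)).det
            = P.jacobian := by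
          rw [Algebra.PreSubmersivePresentation.jacobian_eq_jacobiMatrix_det, hmat,
            Matrix.det_transpose, Algebra.Generators.algebraMap_apply]
        rw [h2, ← hu]
        exact Units.inv_mul u }
  have hgen : ∀ Q : MvPolynomial (Fin n ⊕ Fin c) ℂ,
      aeval (fun v => j (P.val v)) Q = j (aeval P.val Q) := fun Q =>
    (MvPolynomial.comp_aeval_apply (R := ℂ) P.val j Q).symm
  refine ⟨C, fun v => j (P.val v), fun Q => ?_, fun a => ⟨?_, ?_⟩, rfl, fun i => rfl⟩
  · rw [hgen, map_eq_zero_iff j hj]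
    exact hmem Q
  · rintro ⟨Q, rfl⟩
    exact ⟨aeval P.val Q, (hgen Q).symm⟩
  · rintro ⟨s, rfl⟩
    exact ⟨P.σ s, by rw [hgen, Algebra.Generators.aeval_val_σ]⟩

theorem kc_of_pres {S : Type} [CommRing S] [Algebra ℂ S] {ι σ : Type} [Finite ι] [Finite σ]
    (P : Algebra.SubmersivePresentation ℂ S ι σ) (y : Fin n → ι) (hy : Function.Injective y)
    (hy' : Set.range y = (Set.range P.map)ᶜ) (j : S →ₐ[ℂ] K) (hj : Function.Injective j) :
    ∃ (C : Chart n) (gen : Fin n ⊕ Fin C.c → K),
      (∀ Q : MvPolynomial (Fin n ⊕ Fin C.c) ℂ, aeval gen Q = 0 ↔ Q ∈ C.ideal) ∧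
      (∀ a : K, (∃ Q : MvPolynomial (Fin n ⊕ Fin C.c) ℂ, aeval gen Q = a) ↔ ∃ s : S, j s = a) ∧
      ∀ i : Fin n, gen (Sum.inl i) = j (P.val (y i)) := by
  classical
  let f : Fin (Nat.card σ) ≃ σ := (Finite.equivFin σ).symm
  have hbij : Function.Bijective (Sum.elim y (P.map ∘ f)) := by
    constructor
    · refine Function.Injective.sumElim hy (P.map_inj.comp f.injective) fun a b hab => ?_
      have h1 : y a ∈ (Set.range P.map)ᶜ := hy' ▸ Set.mem_range_self a
      exact h1 ⟨f b, hab.symm⟩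
    · intro i
      by_cases hi : i ∈ Set.range P.map
      · obtain ⟨s, rfl⟩ := hi
        exact ⟨Sum.inr (f.symm s), by simp⟩
      · have : i ∈ Set.range y := hy' ▸ hi
        obtain ⟨a, rfl⟩ := this
        exact ⟨Sum.inl a, rfl⟩
  let e : Fin n ⊕ Fin (Nat.card σ) ≃ ι := Equiv.ofBijective _ hbij
  obtain ⟨C, gen, h1, h2, _, h3⟩ := kc_of_pres_aux (n := n) (K := K) (P.reindex e f) (fun k => by
    change e.symm (P.map (f k)) = Sum.inr k
    rw [Equiv.symm_apply_eq]
    rfl) j hj
  exact ⟨C, gen, h1, h2, fun i => h3 i⟩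

theorem kc_exists_enum {S : Type} [CommRing S] [Algebra ℂ S] {ι σ : Type} [Finite ι] [Finite σ]
    (P : Algebra.SubmersivePresentation ℂ S ι σ) (hP : P.dimension = n) :
    ∃ y : Fin n → ι, Function.Injective y ∧ Set.range y = (Set.range P.map)ᶜ := by
  classical
  cases nonempty_fintype ι
  cases nonempty_fintype σ
  have hcard : Nat.card ((Set.range P.map)ᶜ : Set ι) = n := by
    rw [← hP, Algebra.Presentation.dimension, Nat.card_eq_fintype_card, Fintype.card_compl_set,
      Nat.card_eq_fintype_card, Nat.card_eq_fintype_card, Set.card_range_of_injective P.map_inj]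
  let g : Fin n ≃ ((Set.range P.map)ᶜ : Set ι) := (Finite.equivFinOfCardEq hcard).symm
  refine ⟨fun i => (g i : ι), Subtype.val_injective.comp g.injective, ?_⟩
  ext i
  constructor
  · rintro ⟨a, rfl⟩
    exact (g a).2
  · intro hi
    exact ⟨g.symm ⟨i, hi⟩, by simp⟩

/-- a standard smooth algebra embedded in `K` gives a chart -/
theorem kc_of_stdSmooth {S : Type} [CommRing S] [Algebra ℂ S]
    [Algebra.IsStandardSmoothOfRelativeDimension n ℂ S] (j : S →ₐ[ℂ] K)
    (hj : Function.Injective j) :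
    ∃ (C : Chart n) (gen : Fin n ⊕ Fin C.c → K),
      (∀ Q : MvPolynomial (Fin n ⊕ Fin C.c) ℂ, aeval gen Q = 0 ↔ Q ∈ C.ideal) ∧
      (∀ a : K, (∃ Q : MvPolynomial (Fin n ⊕ Fin C.c) ℂ, aeval gen Q = a) ↔ ∃ s : S, j s = a) := by
  obtain ⟨ι, σ, _, _, P, hP⟩ := ‹Algebra.IsStandardSmoothOfRelativeDimension n ℂ S›
  obtain ⟨y, hy, hy'⟩ := kc_exists_enum P hP
  obtain ⟨C, gen, h1, h2, _⟩ := kc_of_pres P y hy hy' j hj
  exact ⟨C, gen, h1, h2⟩

end Claimed.Agent.R242
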