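import Claimed.Agent.R242.Sch.AlgOmega

/-!
# SCH-ALG-TOP : top exterior power and determinants

Mathlib only.  `exteriorPower.ιMulti K n : M [⋀^Fin n]→ₗ[K] ⋀[K]^n M`.
* `alg_top_form`: expand `v i = ∑ j, b.coord j (v i) • b j` by multilinearity
  (`MultilinearMap.map_sum`, `map_smul_univ`, terms with a non injective index vanish
  (`AlternatingMap.map_eq_zero_of_not_injective`), `AlternatingMap.map_perm`, `Matrix.det_apply`),
  or use `Module.Basis.det` and the universal property.
* `alg_top_form_ne_zero`: `exteriorPower.alternatingMapLinearEquiv b.det` is a linear form with value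
  `b.det b = 1` on `ιMulti K n b` (`exteriorPower.alternatingMapLinearEquiv_apply_ιMulti`,
  `Module.Basis.det_self`).
-/

set_option autoImplicit false

namespace Claimed.Agent.R242

open MvPolynomial KaehlerDifferential

theorem alg_top_form {K M : Type*} [Field K] [AddCommGroup M] [Module K M] {n : ℕ}
    (b : Module.Basis (Fin n) K M) (v : Fin n → M) :
    exteriorPower.ιMulti K n v =
      (Matrix.of fun i j => b.coord j (v i)).det • exteriorPower.ιMulti K n b := by
  classical
  have key : exteriorPower.ιMulti K n (M := M) =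
      (LinearMap.toSpanSingleton K _ (exteriorPower.ιMulti K n b)).compAlternatingMap b.det := by
    refine Module.Basis.ext_alternating b fun σ hσ => ?_
    let e : Equiv.Perm (Fin n) := Equiv.ofBijective σ (Finite.injective_iff_bijective.1 hσ)
    have h1 : (fun i => b (σ i)) = b ∘ e := rfl
    rw [h1, AlternatingMap.map_perm, LinearMap.compAlternatingMap_apply, AlternatingMap.map_perm,
      Module.Basis.det_self, LinearMap.toSpanSingleton_apply]
    simp
  have h2 : b.det v = (Matrix.of fun i j => b.coord j (v i)).det := by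
    rw [Module.Basis.det_apply, ← Matrix.det_transpose]
    rfl
  conv_lhs => rw [key]
  rw [LinearMap.compAlternatingMap_apply, LinearMap.toSpanSingleton_apply, h2]

theorem alg_top_form_ne_zero {K M : Type*} [Field K] [AddCommGroup M] [Module K M] {n : ℕ}
    (b : Module.Basis (Fin n) K M) : exteriorPower.ιMulti K n b ≠ 0 := by
  classical
  intro h
  have h1 := exteriorPower.alternatingMapLinearEquiv_apply_ιMulti b.det b
  rw [h, map_zero, Module.Basis.det_self] at h1
  exact zero_ne_one h1

variable {n : ℕ} {K : Type} [Field K] [Algebra ℂ K] {C : Chart n} {gen : Fin n ⊕ Fin C.c → K}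

/-- `d f_1 ∧ … ∧ d f_n = det (∂ f_i / ∂ z_j) d z_1 ∧ … ∧ d z_n` -/
theorem kc_top_form (h : IsKChart C gen) (f : Fin n → K) :
    exteriorPower.ιMulti K n (fun i => D ℂ K (f i)) =
      (Matrix.of fun i j => kcDer h j (f i)).det •
        exteriorPower.ιMulti K n (fun i => D ℂ K (gen (Sum.inl i))) := by
  have h1 := alg_top_form (kcBasis h) (fun i => D ℂ K (f i))
  have h2 : (kcBasis h : Fin n → Ω[K⁄ℂ]) = fun i => D ℂ K (gen (Sum.inl i)) :=
    funext (kcBasis_apply h)
  rw [h2] at h1
  exact h1

theorem kc_top_form_ne_zero (h : IsKChart C gen) :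
    exteriorPower.ιMulti K n (fun i => D ℂ K (gen (Sum.inl i))) ≠ 0 := by
  have h1 := alg_top_form_ne_zero (kcBasis h)
  have h2 : (kcBasis h : Fin n → Ω[K⁄ℂ]) = fun i => D ℂ K (gen (Sum.inl i)) :=
    funext (kcBasis_apply h)
  rwa [h2] at h1

end Claimed.Agent.R242
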