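import Claimed.Agent.R242.Sch.Defs

/-!
# SCH-GEO-VAL : completeness (valuative criterion)

Paper free.  `V` a valuation subring of `K = X.functionField` containing the constants.
ROUTE.  `IsProper.eq_valuativeCriterion` (or `UniversallyClosed.eq_valuativeCriterion`) gives
`ValuativeCriterion.Existence π`.  Build the `ValuativeCommSq π` with `R = V`, `K = K`,
`i₁ = X.fromSpecStalk (genericPoint X) : Spec K ⟶ X` (recall `X.functionField` is by definition
the stalk at the generic point), `i₂ = Spec.map (ℂ → V)`; commutativity: both composites are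
`Spec.map` of the structure map `ℂ → K` (`fnFieldAlgebra π`; use `Spec` fully faithful /
`ΓSpec` adjunction: a morphism to `Spec ℂ` is determined by its global sections,
`Scheme.fromSpecStalk_appTop`).  A lift `l : Spec V ⟶ X`; `x := l (closedPoint V)`.
`Scheme.stalkClosedPointTo l : X.presheaf.stalk x ⟶ V`, and
`Spec_stalkClosedPointTo_fromSpecStalk : Spec.map (stalkClosedPointTo l) ≫ X.fromSpecStalk x = l`.
Composing with `Spec K ⟶ Spec V` one gets that `stalk x → V → K` is the canonical map
`stalk x → K` (`SpecToEquivOfLocalRing` / `SpecMap_stalkSpecializes_fromSpecStalk`, `Spec.map`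
injective, `IsPreimmersion`/mono of `fromSpecStalk`).  Hence `schO x ⊆ V`.
-/

set_option autoImplicit false

namespace Claimed.Agent.R242

open AlgebraicGeometry CategoryTheory Order
open Claims.C0408

variable {X : Scheme.{0}} [IsIntegral X]

theorem sch_complete (π : X ⟶ Spec (CommRingCat.of ℂ)) [IsProper π]
    [inst : Algebra ℂ X.functionField] (hπ : inst = fnFieldAlgebra π)
    (V : ValuationSubring X.functionField)
    (hV : ∀ c : ℂ, algebraMap ℂ X.functionField c ∈ V) :
    ∃ x : X, ∀ a : X.functionField, a ∈ schO x → a ∈ V := by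
  subst hπ
  let _ := fnFieldAlgebra π
  have hex : ValuativeCriterion.Existence π := by
    have h1 : UniversallyClosed π := inferInstance
    rw [UniversallyClosed.eq_valuativeCriterion] at h1
    exact h1.1
  let φ : ℂ →+* V := (algebraMap ℂ X.functionField).codRestrict V.toSubring hV
  let i₁ : Spec (.of X.functionField) ⟶ X := X.fromSpecStalk (genericPoint X)
  let i₂ : Spec (.of V) ⟶ Spec (CommRingCat.of ℂ) := Spec.map (CommRingCat.ofHom φ)
  have w : i₁ ≫ π = Spec.map (CommRingCat.ofHom (algebraMap V X.functionField)) ≫ i₂ := by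
    have h2 : Spec.map (CommRingCat.ofHom (algebraMap V X.functionField)) ≫ i₂ =
        Spec.map ((Scheme.ΓSpecIso (CommRingCat.of ℂ)).inv ≫ π.appTop ≫
          X.presheaf.germ ⊤ (genericPoint X) trivial) := by
      rw [← Spec.map_comp]
      rfl
    rw [h2]
    apply ext_of_isAffine
    rw [Scheme.Hom.comp_appTop, Scheme.fromSpecStalk_appTop]
    rw [← cancel_mono (Scheme.ΓSpecIso _).hom, Scheme.ΓSpecIso_naturality]
    simp
  obtain ⟨l, hl₁, hl₂⟩ := (hex { R := V, K := X.functionField, commSq := ⟨w⟩, .. }).exists_lift
  dsimp only at hl₁ hl₂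
  refine ⟨l (IsLocalRing.closedPoint V), ?_⟩
  have hsp : genericPoint X ⤳ l (IsLocalRing.closedPoint V) := (genericPoint_spec X).specializes trivial
  have h3 : Spec.map (Scheme.stalkClosedPointTo l ≫ CommRingCat.ofHom (algebraMap V X.functionField)) =
      Spec.map (X.presheaf.stalkSpecializes hsp) := by
    rw [← cancel_mono (X.fromSpecStalk (l (IsLocalRing.closedPoint V))),
      Scheme.SpecMap_stalkSpecializes_fromSpecStalk, Spec.map_comp, Category.assoc,
      Scheme.Spec_stalkClosedPointTo_fromSpecStalk]
    exact hl₁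
  have h4 := Spec.map_injective h3
  rintro a ⟨b, rfl⟩
  have h5 : algebraMap (X.presheaf.stalk (l (IsLocalRing.closedPoint V))) X.functionField b =
      (X.presheaf.stalkSpecializes hsp).hom b := rfl
  rw [h5, ← h4]
  exact ((Scheme.stalkClosedPointTo l).hom b).2

end Claimed.Agent.R242
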