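import Claimed.Agent.R242.Sch.ModelDef
import Claimed.Agent.R242.Sch.GeoComplete

/-!
# SCH-AMPLE : `schModel D` satisfies `Model.IsAmple`

Paper free, glue.  `hN` = normality of the stalks.

* `schModel_sec_ring`: `schModel_ring`, `mem_schG`, `schModel_isSec`; for `x ∈ (D p).U` the definition of `SchSec`
  applied to the frame `(D p).frame x hx` is the claim.
* `schModel_bpf`: `j₀` from `sch_exists_gen`.  Fix `j ≥ j₀`.  For a closed point `q` let `s_q` be the section
  generating at `q`; `s_q * lam_q ^ j` is a unit at `q`, hence on an open `W_q ∋ q` (`sch_unit_nhds`);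
  `W'_q := W_q ⊓ (D q).U`.  The `W'_q` cover `X` (every `x` specialises to a closed `q`, `sch_exists_closed`,
  and open sets are stable under generalisation).  Finite subcover `q_1 … q_N`
  (`isCompact_univ.elim_finite_subcover`), `τ i := s_{q_i}`.  Given `p`, `w`: `schModel_pt` gives the closed point
  `q'∈ (D p).U`; `q' ∈ W'_{q_i}`: `s * lam_{q_i} ^ j` is a unit at `q'`; both `lam_{q_i}` and `lam_p` are frames at
  `q'`; `sch_change_frame_unit`.
* `schModel_coords`: `(D p).k`, `(D p).σ`; `e := (σ 0 * lam ^ k)⁻¹ ∈ schG (D p).U` by `σ_unit`.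
* `schModel_complete`: `sch_complete` gives `x`; `sch_exists_closed`: `x ⤳ p`; `sch_specializes_le`.
-/

set_option autoImplicit false

namespace Claimed.Agent.R242

open AlgebraicGeometry CategoryTheory Order MvPolynomial
open Claims.C0408

variable {X : Scheme.{0}} [IsIntegral X] [IsLocallyNoetherian X] [Algebra ℂ X.functionField]
  {L : X → ℤ} {n : ℕ} (D : ∀ p : SchPt X, SchLocal L n p.1)

theorem schModel_sec_ring [CompactSpace X]
    (hN : ∀ x : X, IsIntegrallyClosed (X.presheaf.stalk x)) :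
    ∀ p j s, (schModel D).IsSec j s → s * (schModel D).lam p ^ j ∈ (schModel D).ring p := by
  intro p j s hs
  refine (schModel_ring D p _).2 (mem_schG.2 ?_)
  intro x hx
  exact (schModel_isSec D hN j s).1 hs x (D p).lam ((D p).frame x hx)

theorem schModel_bpf [CompactSpace X] [JacobsonSpace X]
    (hN : ∀ x : X, IsIntegrallyClosed (X.presheaf.stalk x)) (hample : IsAmpleDiv L) :
    ∃ j₀ : ℕ, ∀ j, j₀ ≤ j → ∃ (N : ℕ) (τ : Fin N → X.functionField),
      (∀ i, (schModel D).IsSec j (τ i)) ∧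
      ∀ p w, w ∈ ((schModel D).chart p).pts →
        ∃ i, (schModel D).UnitAtPt p w (τ i * (schModel D).lam p ^ j) := by
  obtain ⟨j₀, hj₀⟩ := sch_exists_gen hN hample
  refine ⟨j₀, fun j hj => ?_⟩
  choose s hs using fun q : SchPt X => hj₀ j hj q.1
  have hu : ∀ q : SchPt X, SchUnit q.1 (s q * (D q).lam ^ j) := fun q =>
    (hs q).2 _ ((D q).frame q.1 (D q).mem)
  choose W hqW hW using fun q : SchPt X => sch_unit_nhds (hu q)
  have hcov : (Set.univ : Set X) ⊆ ⋃ q : SchPt X, ((W q ⊓ (D q).U : X.Opens) : Set X) := by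
    intro x _
    obtain ⟨q, hcl, hsp⟩ := sch_exists_closed x
    refine Set.mem_iUnion.2 ⟨⟨q, hcl⟩, ?_⟩
    exact sch_mem_of_specializes _ hsp ⟨hqW ⟨q, hcl⟩, (D ⟨q, hcl⟩).mem⟩
  obtain ⟨t, ht⟩ := isCompact_univ.elim_finite_subcover
    (fun q : SchPt X => ((W q ⊓ (D q).U : X.Opens) : Set X)) (fun q => (W q ⊓ (D q).U).isOpen) hcov
  refine ⟨t.card, fun i => s (t.equivFin.symm i).1, fun i =>
    (schModel_isSec D hN j _).2 (hs _).1, fun p w hw => ?_⟩
  obtain ⟨q', hq'U, -, hunit⟩ := schModel_pt D p w hw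
  obtain ⟨q, hq, hq'⟩ := Set.mem_iUnion₂.1 (ht (Set.mem_univ q'.1))
  refine ⟨t.equivFin ⟨q, hq⟩, (hunit _).2 ?_⟩
  show SchUnit q'.1 (s (t.equivFin.symm (t.equivFin ⟨q, hq⟩)).1 * (D p).lam ^ j)
  rw [Equiv.symm_apply_apply]
  exact sch_change_frame_unit hN ((D q).frame q'.1 hq'.2) ((D p).frame q'.1 hq'U) j
    (hW q q'.1 hq'.1)

theorem schModel_coords [CompactSpace X]
    (hN : ∀ x : X, IsIntegrallyClosed (X.presheaf.stalk x)) :
    ∀ p, ∃ (k : ℕ) (σ : Fin (n + 1) → X.functionField), 1 ≤ k ∧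
      (∀ i, (schModel D).IsSec k (σ i)) ∧
      (∃ e ∈ (schModel D).ring p, e * (σ 0 * (schModel D).lam p ^ k) = 1) ∧
      ∀ i : Fin n, (schModel D).gen p (Sum.inl i) * σ 0 = σ i.succ := by
  intro p
  refine ⟨(D p).k, (D p).σ, (D p).k_pos, fun i => (schModel_isSec D hN _ _).2 ((D p).σ_sec i),
    ⟨((D p).σ 0 * (D p).lam ^ (D p).k)⁻¹, ?_, ?_⟩, (D p).σ_coord⟩
  · refine (schModel_ring D p _).2 (mem_schG.2 ?_)
    intro x hx
    exact ((D p).σ_unit x hx).2.1
  · exact inv_mul_cancel₀ ((D p).σ_unit p.1 (D p).mem).2.2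

end Claimed.Agent.R242

namespace Claimed.Agent.R242

open AlgebraicGeometry CategoryTheory Order MvPolynomial
open Claims.C0408

variable {X : Scheme.{0}} [IsIntegral X] [IsLocallyNoetherian X]

theorem schModel_complete (π : X ⟶ Spec (CommRingCat.of ℂ)) [IsProper π]
    [inst : Algebra ℂ X.functionField] (hπ : inst = fnFieldAlgebra π) {L : X → ℤ} {n : ℕ}
    (D : ∀ p : SchPt X, SchLocal L n p.1) :
    ∀ V : ValuationSubring X.functionField, (∀ c : ℂ, algebraMap ℂ X.functionField c ∈ V) →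
      ∃ p, ∀ a, (schModel D).RegAt p a → a ∈ V := by
  intro V hV
  obtain ⟨x, hx⟩ := sch_complete π hπ V hV
  have := sch_compactSpace π
  obtain ⟨p, hcl, hsp⟩ := sch_exists_closed x
  let q : SchPt X := ⟨p, hcl⟩
  refine ⟨q, fun a ha => ?_⟩
  have h1 : a ∈ schO p := (schModel_regAt D q a).1 ha
  exact hx a (sch_specializes_le hsp h1)

theorem schModel_isAmple (π : X ⟶ Spec (CommRingCat.of ℂ)) [IsProper π]
    [inst : Algebra ℂ X.functionField] (hπ : inst = fnFieldAlgebra π) {L : X → ℤ} {n : ℕ}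
    (D : ∀ p : SchPt X, SchLocal L n p.1)
    (hN : ∀ x : X, IsIntegrallyClosed (X.presheaf.stalk x)) (hample : IsAmpleDiv L) :
    (schModel D).IsAmple := by
  haveI := sch_compactSpace π
  haveI := sch_jacobsonSpace π
  exact ⟨schModel_sec_ring D hN, schModel_bpf D hN hample, schModel_coords D hN,
    schModel_complete π hπ D⟩

end Claimed.Agent.R242
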