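import Claimed.Agent.R242.Sch.GeoAffine

/-!
# SCH-GEO-SMOOTH : smoothness gives standard smooth affine neighbourhoods (over `ℂ`)

Paper free.  ROUTE.  `SmoothOfRelativeDimension.exists_isStandardSmoothOfRelativeDimension x` gives
`U' ⊆ Spec ℂ` affine open, `V ∋ x` affine open, `e : V ≤ π ⁻¹ᵁ U'` and
`IsStandardSmoothOfRelativeDimension n (π.appLE U' V e).hom`.  As `Spec ℂ` is a point,
`U' = ⊤` (it contains `π x`).  Put on `S := Γ(X, V)` the algebra structure
`((Scheme.ΓSpecIso (CommRingCat.of ℂ)).inv ≫ π.appLE ⊤ V _).hom.toAlgebra`; it is standard smooth of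
relative dimension `n` (`RingHom.isStandardSmoothOfRelativeDimension_respectsIso`).
`j := X.germToFunctionField V` is a `ℂ`-algebra homomorphism for `fnFieldAlgebra π`
(`π.appTop ≫ germ ⊤ = π.appLE ⊤ V ≫ germ V`: `Scheme.Hom.appLE`, `germ_res`), injective
(`germToFunctionField_injective`), with range `schG V` (`sch_affine_range`).
-/

set_option autoImplicit false

namespace Claimed.Agent.R242

open AlgebraicGeometry CategoryTheory Order
open Claims.C0408

variable {X : Scheme.{0}} [IsIntegral X]

theorem sch_smooth_affine (π : X ⟶ Spec (CommRingCat.of ℂ)) (n : ℕ)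
    [SmoothOfRelativeDimension n π] [inst : Algebra ℂ X.functionField]
    (hπ : inst = fnFieldAlgebra π) (x : X) :
    ∃ (U : X.Opens) (_ : IsAffineOpen U) (_ : x ∈ U) (S : Type) (_ : CommRing S)
      (_ : Algebra ℂ S) (_ : Algebra.IsStandardSmoothOfRelativeDimension n ℂ S)
      (j : S →ₐ[ℂ] X.functionField), Function.Injective j ∧
        ∀ a : X.functionField, a ∈ schG U ↔ ∃ s : S, j s = a := by
  obtain ⟨U', hU', V, hV, hxV, e, hstd⟩ :=
    SmoothOfRelativeDimension.exists_isStandardSmoothOfRelativeDimension (n := n) (f := π) x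
  have htop : U' = ⊤ := by
    ext y
    simp only [TopologicalSpace.Opens.coe_top, Set.mem_univ, iff_true]
    have h1 : π x ∈ U' := e hxV
    have h2 : y = π x := @Subsingleton.elim (PrimeSpectrum ℂ) _ y (π x)
    rw [h2]
    exact h1
  subst htop
  have : Nonempty V := ⟨⟨x, hxV⟩⟩
  have hstd2 : RingHom.IsStandardSmoothOfRelativeDimension n
      ((Scheme.ΓSpecIso (CommRingCat.of ℂ)).inv ≫ π.appLE ⊤ V e).hom := by
    rw [CommRingCat.hom_comp]
    exact (RingHom.isStandardSmoothOfRelativeDimension_respectsIso.cancel_left_isIso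
      (Scheme.ΓSpecIso (CommRingCat.of ℂ)).inv (π.appLE ⊤ V e)).2 hstd
  let algS : Algebra ℂ Γ(X, V) :=
    ((Scheme.ΓSpecIso (CommRingCat.of ℂ)).inv ≫ π.appLE ⊤ V e).hom.toAlgebra
  refine ⟨V, hV, hxV, Γ(X, V), inferInstance, algS, hstd2,
    { (algebraMap Γ(X, V) X.functionField) with
      commutes' := ?_ }, ?_, ?_⟩
  · intro c
    subst hπ
    have key : π.appLE ⊤ V e ≫ X.germToFunctionField V
        = π.appTop ≫ X.presheaf.germ ⊤ (genericPoint X) trivial := by
      rw [Scheme.Hom.appLE, Category.assoc, X.presheaf.germ_res]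
      rfl
    have key2 : ((Scheme.ΓSpecIso (CommRingCat.of ℂ)).inv ≫ π.appLE ⊤ V e) ≫ X.germToFunctionField V
        = (Scheme.ΓSpecIso (CommRingCat.of ℂ)).inv ≫ π.appTop ≫
          X.presheaf.germ ⊤ (genericPoint X) trivial := by
      rw [Category.assoc, key]
    have key3 := congrArg (fun f => f.hom c) key2
    exact key3
  · exact X.germToFunctionField_injective V
  · intro a
    exact sch_affine_range hV a

end Claimed.Agent.R242
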