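import Claimed.Agent.R242.Sch.GeoPoints
import Claimed.Agent.R242.Sch.GeoSmooth
import Claimed.Agent.R242.Sch.AlgLoc
import Claimed.Agent.R242.Sch.AlgNormal

/-!
# SCH-CHART-OPS : existence, localisation, translation of charts of `X`; normality of the stalks

Paper free; pure glue of the sorried leaves `GeoSmooth`, `GeoAffine(B)`, `AlgPres`, `AlgLoc`, `AlgNormal`.

* `sch_chart0` = `sch_smooth_affine` + `kc_of_stdSmooth`.
* `SchChart.localize` = `sch_basicOpen` + `kc_localize` (write `g = aeval gen G` by `range_eq`).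
  `U'` is non empty: it contains the generic point (`sch_generic`).
* `SchChart.translate` = `kc_translate`.
* `sch_normal_of_chart`: `R = Γ(X, U)` is integrally closed (`isIntegrallyClosed_iff K`; an element integral
  over `R` is integral over the subalgebra `(aeval gen).range`, which has the same image in `K`:
  `sch_affine_range`, `range_eq`; `kc_normal`), the stalk is a localisation of `R`
  (`IsAffineOpen.isLocalization_stalk`, `isIntegrallyClosed_of_isLocalization`).
-/

set_option autoImplicit false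

namespace Claimed.Agent.R242

open AlgebraicGeometry CategoryTheory Order MvPolynomial
open Claims.C0408

variable {X : Scheme.{0}} [IsIntegral X]

/-- the local ring of the generic point is `K`, and the generic point lies in every non empty open -/
theorem sch_generic (U : X.Opens) (hne : ∃ x : X, x ∈ U) :
    genericPoint X ∈ U ∧ ∀ a : X.functionField, a ∈ schO (genericPoint X) := by
  obtain ⟨x, hx⟩ := hne
  refine ⟨((genericPoint_spec X).mem_open_set_iff U.isOpen).mpr ⟨x, trivial, hx⟩, fun a => ⟨a, ?_⟩⟩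
  change (X.presheaf.stalkSpecializes ((genericPoint_spec X).specializes trivial)).hom a = a
  have h2 : X.presheaf.stalkSpecializes
      ((genericPoint_spec X).specializes (trivial : genericPoint X ∈ (⊤ : Set X))) = 𝟙 _ :=
    TopCat.Presheaf.stalkSpecializes_refl _ _
  rw [h2]
  rfl

theorem sch_chart0 (π : X ⟶ Spec (CommRingCat.of ℂ)) (n : ℕ) [SmoothOfRelativeDimension n π]
    [inst : Algebra ℂ X.functionField] (hπ : inst = fnFieldAlgebra π) (x : X) :
    ∃ (U : X.Opens) (C : Chart n) (gen : Fin n ⊕ Fin C.c → X.functionField),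
      x ∈ U ∧ SchChart U C gen := by
  obtain ⟨U, hU, hx, S, _, _, _, j, hj, hrange⟩ := sch_smooth_affine π n hπ x
  obtain ⟨C, gen, hker, hr⟩ := kc_of_stdSmooth (n := n) j hj
  exact ⟨U, C, gen, hx, ⟨hU, ⟨x, hx⟩, fun a => (hrange a).trans (hr a).symm, hker⟩⟩

variable [Algebra ℂ X.functionField] {n : ℕ}

theorem SchChart.localize {U : X.Opens} {C : Chart n} {gen : Fin n ⊕ Fin C.c → X.functionField}
    (h : SchChart U C gen) {g : X.functionField} (hg : g ∈ schG U) (hg0 : g ≠ 0) :
    ∃ (U' : X.Opens) (C' : Chart n) (gen' : Fin n ⊕ Fin C'.c → X.functionField),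
      SchChart U' C' gen' ∧ U' ≤ U ∧ (∀ z : X, z ∈ U → (z ∈ U' ↔ SchUnit z g)) ∧
      ∀ i : Fin n, gen' (Sum.inl i) = gen (Sum.inl i) := by
  obtain ⟨G, rfl⟩ := (h.range_eq g).1 hg
  obtain ⟨U', haff, hle, hz, hmem⟩ := sch_basicOpen h.affine hg hg0
  obtain ⟨C', gen', hker', hr', hgen⟩ := kc_localize C gen h.ker G hg0
  obtain ⟨hηU, hη⟩ := sch_generic U h.ne
  refine ⟨U', C', gen', ⟨haff, ⟨genericPoint X, (hz _ hηU).2 ⟨hη _, hη _, hg0⟩⟩, fun a => ?_, hker'⟩,
    hle, hz, hgen⟩
  rw [hmem a, hr' a]
  constructor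
  · rintro ⟨k, hk⟩
    obtain ⟨P, hP⟩ := (h.range_eq _).1 hk
    exact ⟨k, P, hP.symm⟩
  · rintro ⟨k, P, hP⟩
    exact ⟨k, (h.range_eq _).2 ⟨P, hP.symm⟩⟩

theorem SchChart.translate {U : X.Opens} {C : Chart n} {gen : Fin n ⊕ Fin C.c → X.functionField}
    (h : SchChart U C gen) (c : Fin n → ℂ) :
    ∃ (C' : Chart n) (gen' : Fin n ⊕ Fin C'.c → X.functionField),
      SchChart U C' gen' ∧
      ∀ i : Fin n, gen' (Sum.inl i) = gen (Sum.inl i) - algebraMap ℂ X.functionField (c i) := by
  obtain ⟨C', gen', hker', hr', hgen⟩ := kc_translate C gen h.ker c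
  exact ⟨C', gen', ⟨h.affine, h.ne, fun a => (h.range_eq a).trans (hr' a).symm, hker'⟩, hgen⟩

theorem sch_normal_of_chart {U : X.Opens} {C : Chart n} {gen : Fin n ⊕ Fin C.c → X.functionField}
    (h : SchChart U C gen) {x : X} (hx : x ∈ U) : IsIntegrallyClosed (X.presheaf.stalk x) := by
  have : Nonempty U := ⟨⟨x, hx⟩⟩
  have hfr : IsFractionRing Γ(X, U) X.functionField :=
    functionField_isFractionRing_of_isAffineOpen X U h.affine
  have hR : IsIntegrallyClosed Γ(X, U) := by
    rw [isIntegrallyClosed_iff X.functionField]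
    intro a ha
    have hmem : ∀ r : Γ(X, U), algebraMap Γ(X, U) X.functionField r ∈ (aeval (R := ℂ) gen).range := by
      intro r
      obtain ⟨P, hP⟩ := (h.range_eq _).1 ((sch_affine_range h.affine _).2 ⟨r, rfl⟩)
      exact ⟨P, hP⟩
    let f : Γ(X, U) →+* (aeval (R := ℂ) gen).range :=
      (algebraMap Γ(X, U) X.functionField).codRestrict (aeval (R := ℂ) gen).range.toSubring hmem
    have hcomp : algebraMap Γ(X, U) X.functionField =
        (algebraMap (aeval (R := ℂ) gen).range X.functionField).comp f := rfl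
    have ha' : IsIntegral (aeval (R := ℂ) gen).range a := by
      have h1 : (algebraMap Γ(X, U) X.functionField).IsIntegralElem a := ha
      rw [hcomp] at h1
      exact h1.of_comp
    obtain ⟨P, hP⟩ := kc_normal h.isKChart a ha'
    exact (sch_affine_range h.affine a).1 ((h.range_eq a).2 ⟨P, hP⟩)
  let _ := X.presheaf.algebra_section_stalk ⟨x, hx⟩
  have := h.affine.isLocalization_stalk ⟨x, hx⟩
  have hdom : IsDomain Γ(X, U) := inferInstance
  exact isIntegrallyClosed_of_isLocalization (X.presheaf.stalk x)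
    (h.affine.primeIdealOf ⟨x, hx⟩).asIdeal.primeCompl (Ideal.primeCompl_le_nonZeroDivisors _)

omit [Algebra ℂ X.functionField] in
/-- the local rings of a smooth variety are integrally closed -/
theorem sch_stalk_normal (π : X ⟶ Spec (CommRingCat.of ℂ)) (n : ℕ) [SmoothOfRelativeDimension n π]
    (x : X) : IsIntegrallyClosed (X.presheaf.stalk x) := by
  letI := fnFieldAlgebra π
  obtain ⟨U, C, gen, hx, h⟩ := sch_chart0 π n rfl x
  exact sch_normal_of_chart h hx

end Claimed.Agent.R242
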