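import Claimed.Agent.R242.Model
import Claimed.Prelude.Def_0408

/-!
# Row 242, package SCH: definitions

`K = X.functionField`.  Everything is expressed through subrings of `K`:

* `schO x`      : the local ring `O_x`, as a subring of `K` (image of the stalk);
* `SchUnit x a` : `a` is a unit of `O_x`;
* `schG U`      : `⋂_{x ∈ U} O_x` (for affine `U` this is the image of `Γ(X, U)`);
* `SchFrame L x lam` : `lam` is a local equation of the Weil divisor `L` at `x`;
* `SchSec L k s`     : `s ∈ H^0(X, kL)` (chart free formulation);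
* `IsKChart C gen`   : `(C, gen)` is a chart of the field `K` (no scheme);
* `SchChart U C gen` : `(C, gen)` is a chart whose ring is `schG U`, `U` affine.

The `ℂ`-algebra structure of `K` is a *variable instance*; the theorems which need to know that it
is `fnFieldAlgebra π` take a hypothesis `hπ : inst = fnFieldAlgebra π` (use `subst hπ`).
-/

set_option autoImplicit false

noncomputable section

namespace Claimed.Agent.R242

open AlgebraicGeometry CategoryTheory Order MvPolynomial
open Claims.C0408

section Scheme

variable {X : Scheme.{0}} [IsIntegral X]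

/-- The local ring `O_x` as a subring of the function field. -/
def schO (x : X) : Subring X.functionField :=
  (algebraMap (X.presheaf.stalk x) X.functionField).range

/-- `a` is a unit of `O_x`. -/
def SchUnit (x : X) (a : X.functionField) : Prop :=
  a ∈ schO x ∧ a⁻¹ ∈ schO x ∧ a ≠ 0

/-- The functions which are regular at all points of `U`. -/
def schG (U : X.Opens) : Subring X.functionField :=
  ⨅ x : X, ⨅ _ : x ∈ U, schO x

theorem mem_schG {U : X.Opens} {a : X.functionField} :
    a ∈ schG U ↔ ∀ x : X, x ∈ U → a ∈ schO x := by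
  simp [schG, Subring.mem_iInf]

variable [IsLocallyNoetherian X]

/-- `lam` is a local equation of the divisor `L` at the point `x`. -/
def SchFrame (L : X → ℤ) (x : X) (lam : X.functionField) : Prop :=
  lam ≠ 0 ∧ ∀ z : X, coheight z = 1 → z ⤳ x → Scheme.ord lam z = L z

/-- `s` is a global section of `O(kL)`. -/
def SchSec (L : X → ℤ) (k : ℕ) (s : X.functionField) : Prop :=
  ∀ (x : X) (lam : X.functionField), SchFrame L x lam → s * lam ^ k ∈ schO x

end Scheme

/-- `(C, gen)` is a chart of the field `K`: `ℂ[gen] ≅ ℂ[z, x]/(rel)` and `K = Frac ℂ[gen]`. -/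
structure IsKChart {n : ℕ} {K : Type} [Field K] [Algebra ℂ K] (C : Chart n)
    (gen : Fin n ⊕ Fin C.c → K) : Prop where
  ker : ∀ P : MvPolynomial (Fin n ⊕ Fin C.c) ℂ, aeval gen P = 0 ↔ P ∈ C.ideal
  frac : ∀ a : K, ∃ P Q : MvPolynomial (Fin n ⊕ Fin C.c) ℂ,
    aeval gen Q ≠ 0 ∧ a * aeval gen Q = aeval gen P

/-- `(C, gen)` is a chart of the affine open subset `U` of `X`. -/
structure SchChart {X : Scheme.{0}} [IsIntegral X] [Algebra ℂ X.functionField] {n : ℕ}
    (U : X.Opens) (C : Chart n) (gen : Fin n ⊕ Fin C.c → X.functionField) : Prop where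
  affine : IsAffineOpen U
  ne : ∃ x : X, x ∈ U
  range_eq : ∀ a : X.functionField,
    a ∈ schG U ↔ ∃ P : MvPolynomial (Fin n ⊕ Fin C.c) ℂ, aeval gen P = a
  ker : ∀ P : MvPolynomial (Fin n ⊕ Fin C.c) ℂ, aeval gen P = 0 ↔ P ∈ C.ideal

end Claimed.Agent.R242

end

/-! equation lemmas of this file, cited once here (rule 6) -/
namespace Claimed.Agent.R242

theorem r242_eqcite_Sch_Defs : True := by
  have := @Claimed.Agent.R242.SchUnit.eq_1
  have := @Claimed.Agent.R242.schO.eq_1
  have := @Claimed.Agent.R242.schG.eq_1
  have := @Claimed.Agent.R242.SchFrame.eq_1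
  have := @Claimed.Agent.R242.SchSec.eq_1
  trivial

end Claimed.Agent.R242
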