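import Claimed.Agent.R242.Sch.ModelDef

/-!
# SCH-END-A : regular forms in a chart

Paper free.  In this file the `ℂ`-algebra structure of `K = X.functionField` is `fnFieldAlgebra π`
(`letI` in the statements: it is inlined, start the proofs with `letI := fnFieldAlgebra π` / `intro …`).
Recall (Def_0408) `IsRegularFormAt π i x ω` := `ω` lies in the additive subgroup generated by the
`algebraMap a • ιMulti K i (fun j => D ℂ K (algebraMap (b j)))`, `a`, `b j` in the stalk at `x`.

* `sch_kcDer_mem` (any algebra instance): `a = r / s` with `r, s ∈ schG U = (aeval gen).range`, `s` a unit at `z`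
  (`sch_affine_frac`, `range_eq`); `∂(r/s) = (∂r s - r ∂s)/s²` (`Derivation.leibniz_div` / `leibniz_inv`),
  `kcDer_range`, `schG_le_schO`.
* `sch_regform_of`: one generator (`AddSubgroup.subset_closure`), unfold `schO`.
* `sch_regform_coeff`: `AddSubgroup.closure_induction`; for a generator use `kc_top_form`:
  `a • ιMulti (D b_j) = (a * det (kcDer j (b i))) • ιMulti (D z_i)`, the determinant of a matrix with entries in the
  subring `schO z` lies in `schO z` (`Matrix.det_apply`, `Subring.sum_mem`, `Subring.prod_mem`, signs).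
-/

set_option autoImplicit false

namespace Claimed.Agent.R242

open AlgebraicGeometry CategoryTheory Order MvPolynomial KaehlerDifferential
open Claims.C0408

variable {X : Scheme.{0}} [IsIntegral X]

/-- `∂/∂z_j` preserves the local rings at the points of the chart -/
theorem sch_kcDer_mem [Algebra ℂ X.functionField] {n : ℕ} {U : X.Opens} {C : Chart n}
    {gen : Fin n ⊕ Fin C.c → X.functionField} (h : SchChart U C gen) {z : X} (hz : z ∈ U)
    (j : Fin n) {a : X.functionField} (ha : a ∈ schO z) : kcDer h.isKChart j a ∈ schO z := by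
  obtain ⟨r, s, hr, hs, hsu, hrs⟩ := sch_affine_frac h.affine hz ha
  have hs0 : s ≠ 0 := hsu.2.2
  have h1 : kcDer h.isKChart j r = a * kcDer h.isKChart j s + s * kcDer h.isKChart j a := by
    rw [← hrs, Derivation.leibniz]
    simp [smul_eq_mul]
  have h2 : kcDer h.isKChart j a = s⁻¹ * (kcDer h.isKChart j r - a * kcDer h.isKChart j s) := by
    rw [h1]
    field_simp
    ring
  have hG : ∀ b ∈ schG U, kcDer h.isKChart j b ∈ schO z := by
    intro b hb
    obtain ⟨P, hP⟩ := (h.range_eq b).1 hb
    obtain ⟨Q, hQ⟩ := kcDer_range h.isKChart j (a := b) ⟨P, hP⟩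
    exact schG_le_schO hz ((h.range_eq _).2 ⟨Q, hQ⟩)
  rw [h2]
  exact (schO z).mul_mem hsu.2.1 ((schO z).sub_mem (hG r hr) ((schO z).mul_mem ha (hG s hs)))

/-- the determinant of a matrix with entries in a subring lies in the subring -/
theorem sch_det_mem {R : Type*} [CommRing R] (S : Subring R) {n : ℕ} (M : Matrix (Fin n) (Fin n) R)
    (hM : ∀ i j, M i j ∈ S) : M.det ∈ S := by
  rw [Matrix.det_apply]
  refine S.sum_mem fun σ _ => ?_
  rw [Units.smul_def]
  exact S.zsmul_mem (S.prod_mem fun i _ => hM _ _) _

theorem sch_regform_of (π : X ⟶ Spec (CommRingCat.of ℂ)) (n : ℕ) (z : X) :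
    letI := fnFieldAlgebra π
    ∀ (a : X.functionField) (b : Fin n → X.functionField), a ∈ schO z → (∀ j, b j ∈ schO z) →
      IsRegularFormAt π n z
        (a • exteriorPower.ιMulti X.functionField n (fun j => D ℂ X.functionField (b j))) := by
  letI := fnFieldAlgebra π
  intro a b ha hb
  obtain ⟨a', rfl⟩ := ha
  choose b' hb' using hb
  obtain rfl : b = fun j => algebraMap (X.presheaf.stalk z) X.functionField (b' j) :=
    funext fun j => (hb' j).symm
  exact AddSubgroup.subset_closure ⟨a', b', rfl⟩

theorem sch_regform_coeff (π : X ⟶ Spec (CommRingCat.of ℂ)) (n : ℕ) :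
    letI := fnFieldAlgebra π
    ∀ {U : X.Opens} {C : Chart n} {gen : Fin n ⊕ Fin C.c → X.functionField}
      (_ : SchChart U C gen) {z : X} (_ : z ∈ U)
      (η : ⋀[X.functionField]^n Ω[X.functionField⁄ℂ]), IsRegularFormAt π n z η →
      ∃ c : X.functionField, c ∈ schO z ∧
        η = c • exteriorPower.ιMulti X.functionField n
          (fun i => D ℂ X.functionField (gen (Sum.inl i))) := by
  letI := fnFieldAlgebra π
  intro U C gen h z hz η hη
  unfold IsRegularFormAt at hη
  induction hη using AddSubgroup.closure_induction with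
  | mem x hx =>
    obtain ⟨a, b, rfl⟩ := hx
    refine ⟨algebraMap (X.presheaf.stalk z) X.functionField a *
      (Matrix.of fun i j => kcDer h.isKChart j
        (algebraMap (X.presheaf.stalk z) X.functionField (b i))).det, ?_, ?_⟩
    · refine (schO z).mul_mem ⟨a, rfl⟩ (sch_det_mem _ _ fun i j => ?_)
      exact sch_kcDer_mem h hz j ⟨b i, rfl⟩
    · rw [kc_top_form h.isKChart, smul_smul]
  | zero => exact ⟨0, (schO z).zero_mem, by simp⟩
  | add x y _ _ hx hy =>
    obtain ⟨c1, h1, rfl⟩ := hx
    obtain ⟨c2, h2, rfl⟩ := hy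
    exact ⟨c1 + c2, (schO z).add_mem h1 h2, (add_smul _ _ _).symm⟩
  | neg x _ hx =>
    obtain ⟨c, h1, rfl⟩ := hx
    exact ⟨-c, (schO z).neg_mem h1, (neg_smul _ _).symm⟩

end Claimed.Agent.R242
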