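import Claimed.Agent.R242.Sch.EndA

/-!
# SCH-END-B : `Model.Conclusion m` for `schModel D` gives `AdjointGloballyGenerated π n (m • L)`

Paper free.  The `ℂ`-algebra structure of `K` is `fnFieldAlgebra π` (`letI` in the statements, inlined).
Notation: `ω₀(p) := ιMulti K n (fun i => D ℂ K ((D p).gen (inl i)))` = `dz_1 ∧ … ∧ dz_n` in the chart at `p`.
Recall (Def_0408) `FormOrdGe π n z ω k := ∃ g, k ≤ ord g z ∧ ∃ η, IsRegularFormAt π n z η ∧ ω = g • η`.

* `sch_form_ge`: `g := (lam_q ^ m)⁻¹`, `ord g z = - m * L z` (`sch_ord_inv`, `sch_ord_pow`, `(D q).frame q (D q).mem`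
  applied to `z ⤳ q`; `(m • L) z = m * L z`); `η := (h * jac * lam_q ^ m) • ω₀(q)` is regular at `z`
  (`sch_regform_of`; `schO q ≤ schO z`; `z ∈ (D q).U` by `sch_mem_of_specializes`; `gen (inl j) ∈ schG U ≤ schO z` by
  `range_eq` with `P = X (inl j)`); `ω₀(p) = jac • ω₀(q)` is `kc_top_form` for the chart at `q` (`schModel_jac`).
* `sch_form_not_ge`: if `h • ω₀(p) = g • η`, `η = c • ω₀(p)`, `c ∈ schO z` (`sch_regform_coeff`, `z ∈ (D p).U`), then
  `h = g * c` (`kc_top_form_ne_zero`), `h ≠ 0`, so `ord h z = ord g z + ord c z ≥ - m L z + 1` (`sch_ord_nonneg`),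
  while `h * lam_p ^ m` is a unit at `z` (`SchUnit.of_specializes`), so `ord h z + m * L z = 0` (`sch_ord_unit`).
* `schModel_conclusion`: `x : X`; `sch_exists_closed`: `x ⤳ p`; `h` from `Conclusion` at `p`; `ω := h • ω₀(p) ≠ 0`.
  For `z` of coheight one choose a closed `q` with `z ⤳ q`; `schModel_regAt`, `schModel_unitAt`.
-/

set_option autoImplicit false

namespace Claimed.Agent.R242

open AlgebraicGeometry CategoryTheory Order MvPolynomial KaehlerDifferential
open Claims.C0408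

variable {X : Scheme.{0}} [IsIntegral X] [IsLocallyNoetherian X]

theorem sch_form_ge (π : X ⟶ Spec (CommRingCat.of ℂ)) (n : ℕ) :
    letI := fnFieldAlgebra π
    ∀ {L : X → ℤ} (D : ∀ p : SchPt X, SchLocal L n p.1) (m : ℕ) (p q : SchPt X)
      (h : X.functionField),
      h * (schModel D).jac p q * (D q).lam ^ m ∈ schO q.1 →
      ∀ z : X, coheight z = 1 → z ⤳ q.1 →
        FormOrdGe π n z (h • exteriorPower.ιMulti X.functionField n
          (fun i => KaehlerDifferential.D ℂ X.functionField ((D p).gen (Sum.inl i)))) (-(m • L) z) := by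
  let _ := fnFieldAlgebra π
  intro L D m p q h hreg z hz hzq
  have hfr := (D q).frame q.1 (D q).mem
  have hzU : z ∈ (D q).U := sch_mem_of_specializes _ hzq (D q).mem
  refine ⟨((D q).lam ^ m)⁻¹, ?_, (h * (schModel D).jac p q * (D q).lam ^ m) •
    exteriorPower.ιMulti X.functionField n
      (fun i => KaehlerDifferential.D ℂ X.functionField ((D q).gen (Sum.inl i))), ?_, ?_⟩
  · rw [sch_ord_inv, sch_ord_pow, hfr.2 z hz hzq, schla_nsmul]
  · refine sch_regform_of π n z _ _ (sch_specializes_le hzq hreg) fun j => ?_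
    exact schG_le_schO hzU (((D q).chart.range_eq _).2 ⟨MvPolynomial.X (Sum.inl j), aeval_X _ _⟩)
  · have h1 := kc_top_form (D q).chart.isKChart (fun i => (D p).gen (Sum.inl i))
    rw [h1, ← schModel_jac, smul_smul, smul_smul]
    congr 1
    have h0 : (D q).lam ^ m ≠ 0 := pow_ne_zero _ hfr.1
    field_simp

theorem sch_form_not_ge (π : X ⟶ Spec (CommRingCat.of ℂ)) (n : ℕ) :
    letI := fnFieldAlgebra π
    ∀ {L : X → ℤ} (D : ∀ p : SchPt X, SchLocal L n p.1) (m : ℕ) (p : SchPt X)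
      (h : X.functionField), SchUnit p.1 (h * (D p).lam ^ m) →
      ∀ z : X, coheight z = 1 → z ⤳ p.1 →
        ¬ FormOrdGe π n z (h • exteriorPower.ιMulti X.functionField n
          (fun i => KaehlerDifferential.D ℂ X.functionField ((D p).gen (Sum.inl i)))) (-(m • L) z + 1) := by
  let _ := fnFieldAlgebra π
  intro L D m p h hu z hz hzp
  rintro ⟨g, hg, η, hη, he⟩
  have hfr := (D p).frame p.1 (D p).mem
  have hzU : z ∈ (D p).U := sch_mem_of_specializes _ hzp (D p).mem
  obtain ⟨c, hc, rfl⟩ := sch_regform_coeff π n (D p).chart hzU η hη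
  have hne := kc_top_form_ne_zero (D p).chart.isKChart
  rw [smul_smul] at he
  have hgc : h = g * c := smul_left_injective _ hne he
  have hh0 : h ≠ 0 := left_ne_zero_of_mul hu.2.2
  have hg0 : g ≠ 0 := by
    rintro rfl
    exact hh0 (by rw [hgc, zero_mul])
  have hc0 : c ≠ 0 := by
    rintro rfl
    exact hh0 (by rw [hgc, mul_zero])
  have h1 : Scheme.ord h z = Scheme.ord g z + Scheme.ord c z := by
    rw [hgc, Scheme.ord_mul hg0 hc0]
  have h2 := sch_ord_nonneg hc
  have h3 := sch_ord_unit (SchUnit.of_specializes hzp hu)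
  rw [Scheme.ord_mul hh0 (pow_ne_zero _ hfr.1), sch_ord_pow, hfr.2 z hz hzp] at h3
  rw [schla_nsmul] at hg
  linarith

theorem schModel_conclusion (π : X ⟶ Spec (CommRingCat.of ℂ)) (n : ℕ) [CompactSpace X] :
    letI := fnFieldAlgebra π
    ∀ {L : X → ℤ} (D : ∀ p : SchPt X, SchLocal L n p.1) (m : ℕ),
      (schModel D).Conclusion m → AdjointGloballyGenerated π n (m • L) := by
  let _ := fnFieldAlgebra π
  intro L D m hC x
  obtain ⟨p, hcl, hxp⟩ := sch_exists_closed x
  obtain ⟨h, hu, hreg⟩ := hC ⟨p, hcl⟩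
  have hu' : SchUnit p (h * (D ⟨p, hcl⟩).lam ^ m) := (schModel_unitAt D ⟨p, hcl⟩ _).1 hu
  have hh0 : h ≠ 0 := left_ne_zero_of_mul hu'.2.2
  refine ⟨h • exteriorPower.ιMulti X.functionField n
    (fun i => KaehlerDifferential.D ℂ X.functionField ((D ⟨p, hcl⟩).gen (Sum.inl i))),
    smul_ne_zero hh0 (kc_top_form_ne_zero (D ⟨p, hcl⟩).chart.isKChart), fun z hz => ?_,
    fun z hz hzx => ?_⟩
  · obtain ⟨q, hqcl, hzq⟩ := sch_exists_closed z
    exact sch_form_ge π n D m ⟨p, hcl⟩ ⟨q, hqcl⟩ h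
      ((schModel_regAt D ⟨q, hqcl⟩ _).1 (hreg ⟨q, hqcl⟩)) z hz hzq
  · exact sch_form_not_ge π n D m ⟨p, hcl⟩ h hu' z hz (hzx.trans hxp)

end Claimed.Agent.R242
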