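import Claimed.Agent.R242.Sch.Defs

/-!
# SCH-GEO-ORD : `Scheme.ord` versus the subrings `schO z`

Paper free.  Mathlib: `Mathlib/AlgebraicGeometry/OrderOfVanishing.lean` (`Scheme.ord`,
`ord_mul`, `ord_eq_iff`, `le_ord_iff`, `ordHom`), `Mathlib/RingTheory/OrderOfVanishing/*`
(`Ring.ordFrac`, `ordFrac_ge_one_of_ne_zero`, `ordFrac_of_isUnit`, `ordFrac_eq_valuation_inv`,
`isUnit_iff_ordFrac_one_of_isDiscreteValuationRing`,
`IsDedekindDomain.HeightOneSpectrum.valuation_le_one_iff...` / `mem_integers`).
Recall `Scheme.ord f z = 0` if `f = 0` or `coheight z ≠ 1`.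
-/

set_option autoImplicit false

namespace Claimed.Agent.R242

open AlgebraicGeometry CategoryTheory Order
open Claims.C0408

variable {X : Scheme.{0}} [IsIntegral X] [IsLocallyNoetherian X]

theorem sch_ord_one (z : X) : Scheme.ord (1 : X.functionField) z = 0 := by
  by_cases hz : coheight z = 1
  · rw [Scheme.ord_eq_iff hz one_ne_zero]
    simp
  · simp [hz]

theorem sch_ord_inv (f : X.functionField) (z : X) : Scheme.ord f⁻¹ z = - Scheme.ord f z := by
  by_cases hf : f = 0
  · subst hf
    simp
  have h := Scheme.ord_mul (x := z) hf (inv_ne_zero hf)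
  rw [mul_inv_cancel₀ hf, sch_ord_one] at h
  linarith

theorem sch_ord_pow (f : X.functionField) (k : ℕ) (z : X) :
    Scheme.ord (f ^ k) z = k * Scheme.ord f z := by
  by_cases hf : f = 0
  · subst hf
    rcases Nat.eq_zero_or_pos k with rfl | hk
    · simp [sch_ord_one]
    · rw [zero_pow hk.ne']
      simp
  induction k with
  | zero => simp [sch_ord_one]
  | succ k ih =>
    rw [pow_succ, Scheme.ord_mul (pow_ne_zero k hf) hf, ih]
    push_cast
    ring

theorem sch_ord_div {f g : X.functionField} (hf : f ≠ 0) (hg : g ≠ 0) (z : X) :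
    Scheme.ord (f / g) z = Scheme.ord f z - Scheme.ord g z := by
  rw [div_eq_mul_inv, Scheme.ord_mul hf (inv_ne_zero hg), sch_ord_inv]
  ring

theorem sch_ord_nonneg {f : X.functionField} {z : X} (hf : f ∈ schO z) :
    0 ≤ Scheme.ord f z := by
  obtain ⟨s, rfl⟩ := hf
  by_cases hz : coheight z = 1
  · by_cases hs : s = 0
    · subst hs
      simp
    have hne : algebraMap (X.presheaf.stalk z) X.functionField s ≠ 0 := by
      intro h
      exact hs ((IsFractionRing.injective (X.presheaf.stalk z) X.functionField)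
        (by rw [h, map_zero]))
    rw [Scheme.le_ord_iff hz hne]
    have : Ring.KrullDimLE 1 (X.presheaf.stalk z) := krullDimLE_of_coheight_le hz.le
    exact Ring.ordFrac_ge_one_of_ne_zero hs
  · simp [hz]

theorem sch_ord_unit {f : X.functionField} {z : X} (hf : SchUnit z f) :
    Scheme.ord f z = 0 := by
  have h1 := sch_ord_nonneg hf.1
  have h2 := sch_ord_nonneg hf.2.1
  rw [sch_ord_inv] at h2
  linarith

/-- at a codimension one point whose local ring is a DVR, `ord ≥ 0` means regular -/
theorem sch_mem_of_ord_nonneg {f : X.functionField} {z : X} (hz : coheight z = 1)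
    [IsDiscreteValuationRing (X.presheaf.stalk z)] (h : 0 ≤ Scheme.ord f z) : f ∈ schO z := by
  by_cases hf : f = 0
  · subst hf
    exact Subring.zero_mem _
  rw [Scheme.le_ord_iff hz hf] at h
  have h' : (1 : WithZero (Multiplicative ℤ)) ≤
      Ring.ordFrac (X.presheaf.stalk z) f := h
  rw [Ring.ordFrac_eq_valuation_inv] at h'
  have hv : (IsDiscreteValuationRing.maximalIdeal (X.presheaf.stalk z)).valuation
      X.functionField f ≠ 0 := by
    simpa using hf
  have h'' : (IsDiscreteValuationRing.maximalIdeal (X.presheaf.stalk z)).valuation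
      X.functionField f ≤ 1 := by
    have := (one_le_inv₀ (zero_lt_iff.mpr hv)).mp h'
    exact this
  obtain ⟨a, ha⟩ := IsDiscreteValuationRing.exists_lift_of_le_one h''
  exact ⟨a, ha⟩

theorem sch_unit_of_ord_eq_zero {f : X.functionField} {z : X} (hz : coheight z = 1)
    [IsDiscreteValuationRing (X.presheaf.stalk z)] (hf : f ≠ 0) (h : Scheme.ord f z = 0) :
    SchUnit z f := by
  refine ⟨sch_mem_of_ord_nonneg hz h.ge, sch_mem_of_ord_nonneg hz ?_, hf⟩
  rw [sch_ord_inv, h]
  simp

end Claimed.Agent.R242
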