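import Claimed.Agent.R242.Sch.GeoAffine
import Claimed.Agent.R242.Sch.GeoOrd
import Claimed.Agent.R242.Sch.AlgHartogs

/-!
# SCH-GEO-HART : Hartogs on a normal locally noetherian integral scheme

Paper free.
* `sch_dvr`: the stalk at a point of coheight one is a noetherian local domain of dimension one
  (`ringKrullDim_stalk_eq_coheight`), integrally closed: `IsDiscreteValuationRing.TFAE`
  (or `IsDedekindDomain` + local + not a field).
* `sch_hartogs`: apply `alg_hartogs` to `R = X.presheaf.stalk x`.  For a prime `q` of height one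
  of the stalk choose an affine open `U ∋ x` (`X.isBasis_affineOpens` / `exists_isAffineOpen_mem_and_subset`),
  `q₀ = q.comap (germ)` in `Γ(X, U)`; `height q₀ = height q = 1` (`IsLocalization.height_comap`
  with `IsAffineOpen.isLocalization_stalk`), `q₀ ≤ primeIdealOf x`; `z` = the point of `q₀`
  (`sch_affine_exists_point`), `z ⤳ x` (`sch_affine_specializes_iff`), `coheight z = 1`
  (`sch_affine_coheight`); `f ∈ schO z` gives `f s₀ = r₀`, `s₀ ∉ q₀` (`sch_affine_mem_iff`).
-/

set_option autoImplicit false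

namespace Claimed.Agent.R242

open AlgebraicGeometry CategoryTheory Order
open Claims.C0408

variable {X : Scheme.{0}} [IsIntegral X] [IsLocallyNoetherian X]

theorem sch_dvr (hN : ∀ x : X, IsIntegrallyClosed (X.presheaf.stalk x)) {z : X}
    (hz : coheight z = 1) : IsDiscreteValuationRing (X.presheaf.stalk z) := by
  have hdim : ringKrullDim (X.presheaf.stalk z) = 1 := by
    rw [ringKrullDim_stalk_eq_coheight, hz]; rfl
  have hle : Ring.KrullDimLE 1 (X.presheaf.stalk z) := krullDimLE_of_coheight_le hz.le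
  have hnf : ¬ IsField (X.presheaf.stalk z) := by
    intro hf
    rw [ringKrullDim_eq_zero_of_isField hf] at hdim
    exact zero_ne_one hdim
  have hmax : IsLocalRing.maximalIdeal (X.presheaf.stalk z) ≠ ⊥ :=
    IsLocalRing.isField_iff_maximalIdeal_eq.not.mp hnf
  have htfae := (IsDiscreteValuationRing.TFAE (X.presheaf.stalk z) hnf).out 0 3
  refine htfae.2 ⟨hN z, ?_⟩
  refine ⟨IsLocalRing.maximalIdeal _, ⟨hmax, inferInstance⟩, ?_⟩
  rintro P ⟨hP0, hP⟩
  exact IsLocalRing.eq_maximalIdeal (hP.isMaximal_of_ne_bot hP0)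

theorem sch_hartogs (hN : ∀ x : X, IsIntegrallyClosed (X.presheaf.stalk x)) (x : X)
    (f : X.functionField) (h : ∀ z : X, coheight z = 1 → z ⤳ x → f ∈ schO z) : f ∈ schO x := by
  have := hN x
  suffices key : ∀ q : Ideal (X.presheaf.stalk x), q.IsPrime → q.height = 1 →
      ∃ a s : X.presheaf.stalk x, s ∉ q ∧
        f * algebraMap (X.presheaf.stalk x) X.functionField s =
          algebraMap (X.presheaf.stalk x) X.functionField a by
    obtain ⟨a, ha⟩ := alg_hartogs (R := X.presheaf.stalk x) (K := X.functionField) f key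
    exact ⟨a, ha⟩
  intro q hq hq1
  obtain ⟨_, ⟨U, hU, rfl⟩, hxU, -⟩ :=
    X.isBasis_affineOpens.exists_subset_of_mem_open (Set.mem_univ x) isOpen_univ
  have hxU' : x ∈ U := hxU
  have : Nonempty U := ⟨⟨x, hxU'⟩⟩
  let _ : Algebra Γ(X, U) (X.presheaf.stalk x) := X.presheaf.algebra_section_stalk ⟨x, hxU'⟩
  have hloc : IsLocalization.AtPrime (X.presheaf.stalk x) (hU.primeIdealOf ⟨x, hxU'⟩).asIdeal :=
    hU.isLocalization_stalk ⟨x, hxU'⟩
  let q₀ : Ideal Γ(X, U) := q.comap (algebraMap Γ(X, U) (X.presheaf.stalk x))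
  have hq₀ : q₀.IsPrime := Ideal.comap_isPrime _ _
  have hq₀1 : q₀.height = 1 := by
    rw [← hq1]
    exact IsLocalization.height_under (hU.primeIdealOf ⟨x, hxU'⟩).asIdeal.primeCompl q
  have hq₀le : q₀ ≤ (hU.primeIdealOf ⟨x, hxU'⟩).asIdeal := by
    have h1 := IsLocalization.AtPrime.under_maximalIdeal (X.presheaf.stalk x)
      (hU.primeIdealOf ⟨x, hxU'⟩).asIdeal
    rw [← h1]
    exact Ideal.comap_mono (IsLocalRing.le_maximalIdeal hq.ne_top)
  obtain ⟨z, hzU, hz⟩ := sch_affine_exists_point hU ⟨q₀, hq₀⟩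
  have hzx : z ⤳ x := by
    rw [sch_affine_specializes_iff hU hzU hxU', hz]
    exact hq₀le
  have hz1 : coheight z = 1 := by
    rw [sch_affine_coheight hU hzU, hz]
    exact hq₀1
  obtain ⟨r, s, hs, hrs⟩ := (sch_affine_mem_iff hU hzU f).1 (h z hz1 hzx)
  rw [hz] at hs
  refine ⟨algebraMap Γ(X, U) (X.presheaf.stalk x) r, algebraMap Γ(X, U) (X.presheaf.stalk x) s, hs, ?_⟩
  have htower : IsScalarTower Γ(X, U) (X.presheaf.stalk x) X.functionField :=
    functionField_isScalarTower X U ⟨x, hxU'⟩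
  rw [← IsScalarTower.algebraMap_apply Γ(X, U) (X.presheaf.stalk x) X.functionField,
    ← IsScalarTower.algebraMap_apply Γ(X, U) (X.presheaf.stalk x) X.functionField]
  exact hrs

/-- Hartogs in terms of `ord` -/
theorem sch_hartogs_ord (hN : ∀ x : X, IsIntegrallyClosed (X.presheaf.stalk x)) (x : X)
    (f : X.functionField) (h : ∀ z : X, coheight z = 1 → z ⤳ x → 0 ≤ Scheme.ord f z) :
    f ∈ schO x := by
  refine sch_hartogs hN x f fun z hz hzx => ?_
  have := sch_dvr hN hz
  exact sch_mem_of_ord_nonneg hz (h z hz hzx)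

/-- a function without zeros and poles through `x` is a unit at `x` -/
theorem sch_hartogs_unit (hN : ∀ x : X, IsIntegrallyClosed (X.presheaf.stalk x)) (x : X)
    (f : X.functionField) (hf : f ≠ 0)
    (h : ∀ z : X, coheight z = 1 → z ⤳ x → Scheme.ord f z = 0) : SchUnit x f := by
  refine ⟨sch_hartogs_ord hN x f fun z hz hzx => (h z hz hzx).ge, ?_, hf⟩
  refine sch_hartogs_ord hN x f⁻¹ fun z hz hzx => ?_
  rw [sch_ord_inv, h z hz hzx, neg_zero]

end Claimed.Agent.R242
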