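import Claimed.Agent.R242.Sch.GeoStalk
import Claimed.Agent.R242.Sch.GeoHartogs

/-!
# SCH-FRAME : local equations of `L` and sections of `kL`

Paper free; consequences of `sch_hartogs_ord`, `sch_hartogs_unit` (GeoHartogs), `GeoOrd`, `GeoStalk`
(`Scheme.ord_mul`, `sch_ord_pow`, `sch_ord_inv`, `sch_ord_div`).
`hN` = normality of the stalks.
-/

set_option autoImplicit false

namespace Claimed.Agent.R242

open AlgebraicGeometry CategoryTheory Order
open Claims.C0408

variable {X : Scheme.{0}} [IsIntegral X] [IsLocallyNoetherian X]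

theorem SchFrame.of_specializes {L : X → ℤ} {y x : X} {lam : X.functionField} (h : y ⤳ x)
    (hf : SchFrame L x lam) : SchFrame L y lam :=
  ⟨hf.1, fun z hz hzy => hf.2 z hz (hzy.trans h)⟩

/-- two local equations differ by a unit -/
theorem sch_frame_ratio (hN : ∀ x : X, IsIntegrallyClosed (X.presheaf.stalk x)) {L : X → ℤ} {x : X}
    {a b : X.functionField} (ha : SchFrame L x a) (hb : SchFrame L x b) : SchUnit x (a * b⁻¹) := by
  refine sch_hartogs_unit hN x _ (mul_ne_zero ha.1 (inv_ne_zero hb.1)) fun z hz hzx => ?_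
  rw [Scheme.ord_mul ha.1 (inv_ne_zero hb.1), sch_ord_inv, ha.2 z hz hzx, hb.2 z hz hzx]
  ring

theorem sch_change_frame (hN : ∀ x : X, IsIntegrallyClosed (X.presheaf.stalk x)) {L : X → ℤ} {x : X}
    {a b s : X.functionField} (ha : SchFrame L x a) (hb : SchFrame L x b) (k : ℕ)
    (h : s * a ^ k ∈ schO x) : s * b ^ k ∈ schO x := by
  have hu := (sch_frame_ratio hN hb ha).pow k
  have e : s * b ^ k = (s * a ^ k) * (b * a⁻¹) ^ k := by
    have ha0 := ha.1
    rw [mul_pow, inv_pow]
    field_simp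
  rw [e]
  exact (schO x).mul_mem h hu.1

theorem sch_change_frame_unit (hN : ∀ x : X, IsIntegrallyClosed (X.presheaf.stalk x)) {L : X → ℤ}
    {x : X} {a b s : X.functionField} (ha : SchFrame L x a) (hb : SchFrame L x b) (k : ℕ)
    (h : SchUnit x (s * a ^ k)) : SchUnit x (s * b ^ k) := by
  have hu := (sch_frame_ratio hN hb ha).pow k
  have e : s * b ^ k = (s * a ^ k) * (b * a⁻¹) ^ k := by
    have ha0 := ha.1
    rw [mul_pow, inv_pow]
    field_simp
  rw [e]
  exact h.mul hu

/-- a function with `div s + k L ≥ 0` is a section of `kL` -/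
theorem sch_sec_of_ord (hN : ∀ x : X, IsIntegrallyClosed (X.presheaf.stalk x)) {L : X → ℤ} {k : ℕ}
    {s : X.functionField} (h : ∀ z : X, coheight z = 1 → 0 ≤ Scheme.ord s z + (k : ℤ) * L z) :
    SchSec L k s := by
  intro x lam hl
  by_cases hs : s = 0
  · rw [hs, zero_mul]
    exact (schO x).zero_mem
  refine sch_hartogs_ord hN x _ fun z hz hzx => ?_
  rw [Scheme.ord_mul hs (pow_ne_zero k hl.1), sch_ord_pow, hl.2 z hz hzx]
  exact h z hz

/-- a section with `div s + k L = 0` near `x` generates `kL` at `x` -/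
theorem sch_gen_of_ord (hN : ∀ x : X, IsIntegrallyClosed (X.presheaf.stalk x)) {L : X → ℤ} {k : ℕ}
    {s lam : X.functionField} {x : X} (hs : s ≠ 0) (hl : SchFrame L x lam)
    (h : ∀ z : X, coheight z = 1 → z ⤳ x → Scheme.ord s z + (k : ℤ) * L z = 0) :
    SchUnit x (s * lam ^ k) := by
  refine sch_hartogs_unit hN x _ (mul_ne_zero hs (pow_ne_zero k hl.1)) fun z hz hzx => ?_
  rw [Scheme.ord_mul hs (pow_ne_zero k hl.1), sch_ord_pow, hl.2 z hz hzx]
  exact h z hz hzx

theorem SchSec.zero (L : X → ℤ) (k : ℕ) : SchSec L k (0 : X.functionField) := by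
  intro x lam _
  rw [zero_mul]
  exact (schO x).zero_mem

theorem SchSec.add {L : X → ℤ} {k : ℕ} {s t : X.functionField} (hs : SchSec L k s)
    (ht : SchSec L k t) : SchSec L k (s + t) := by
  intro x lam hl
  rw [add_mul]
  exact (schO x).add_mem (hs x lam hl) (ht x lam hl)

theorem SchSec.sub {L : X → ℤ} {k : ℕ} {s t : X.functionField} (hs : SchSec L k s)
    (ht : SchSec L k t) : SchSec L k (s - t) := by
  intro x lam hl
  rw [sub_mul]
  exact (schO x).sub_mem (hs x lam hl) (ht x lam hl)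

theorem SchSec.const_mul (π : X ⟶ Spec (CommRingCat.of ℂ)) [inst : Algebra ℂ X.functionField]
    (hπ : inst = fnFieldAlgebra π) {L : X → ℤ} {k : ℕ} {s : X.functionField} (hs : SchSec L k s)
    (c : ℂ) : SchSec L k (algebraMap ℂ X.functionField c * s) := by
  intro x lam hl
  rw [mul_assoc]
  exact (schO x).mul_mem (sch_const_mem π hπ x c) (hs x lam hl)

end Claimed.Agent.R242
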