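import Claimed.Agent.R242.Sch.Defs

/-!
# SCH-GEO-AFF : the dictionary of an affine open subset `U`, `R = Γ(X, U)`

Paper free.  Mathlib: `IsAffineOpen.isLocalization_stalk`, `IsAffineOpen.primeIdealOf`,
`IsAffineOpen.fromSpec`, `fromSpec_primeIdealOf`, `IsAffineOpen.isoSpec`,
`functionField_isFractionRing_of_isAffineOpen`, `functionField_isScalarTower`,
`coheight_eq_of_isOpenImmersion`, `idealHeight_eq_coheight`,
`PrimeSpectrum.le_iff_specializes`, `PrimeSpectrum.iInf_localization_eq_bot` /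
`MaximalSpectrum.iInf_localization_eq_bot`, `Topology.IsInducing.specializes_iff`.
-/

set_option autoImplicit false

namespace Claimed.Agent.R242

open AlgebraicGeometry CategoryTheory Order
open Claims.C0408

variable {X : Scheme.{0}} [IsIntegral X]

theorem schaf_algebraMap_eq {U : X.Opens} [Nonempty U] {x : X} (hx : x ∈ U) (r : Γ(X, U)) :
    algebraMap Γ(X, U) X.functionField r
      = algebraMap (X.presheaf.stalk x) X.functionField (X.presheaf.germ U x hx r) :=
  (Scheme.algebraMap_germ_eq_germToFunctionField X hx r).symm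

theorem schaf_algebraMap_injective (U : X.Opens) [Nonempty U] :
    Function.Injective (algebraMap Γ(X, U) X.functionField) :=
  Scheme.germToFunctionField_injective X U

theorem schaf_algebraMap_mem {U : X.Opens} [Nonempty U] {x : X} (hx : x ∈ U) (r : Γ(X, U)) :
    algebraMap Γ(X, U) X.functionField r ∈ schO x :=
  ⟨X.presheaf.germ U x hx r, (schaf_algebraMap_eq hx r).symm⟩

theorem schaf_isUnit_germ_iff {U : X.Opens} (hU : IsAffineOpen U) {x : X} (hx : x ∈ U)
    (s : Γ(X, U)) :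
    IsUnit (X.presheaf.germ U x hx s) ↔ s ∉ (hU.primeIdealOf ⟨x, hx⟩).asIdeal := by
  let _ := X.presheaf.algebra_section_stalk ⟨x, hx⟩
  have := hU.isLocalization_stalk ⟨x, hx⟩
  exact IsLocalization.AtPrime.isUnit_to_map_iff (X.presheaf.stalk x)
    (hU.primeIdealOf ⟨x, hx⟩).asIdeal s

/-- `O_x` is the localisation of `R` at the prime of `x` -/
theorem sch_affine_mem_iff {U : X.Opens} (hU : IsAffineOpen U) [Nonempty U] {x : X} (hx : x ∈ U)
    (a : X.functionField) :
    a ∈ schO x ↔ ∃ r s : Γ(X, U), s ∉ (hU.primeIdealOf ⟨x, hx⟩).asIdeal ∧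
      a * algebraMap Γ(X, U) X.functionField s = algebraMap Γ(X, U) X.functionField r := by
  constructor
  · rintro ⟨b, rfl⟩
    let _ := X.presheaf.algebra_section_stalk ⟨x, hx⟩
    have := hU.isLocalization_stalk ⟨x, hx⟩
    obtain ⟨⟨r, s⟩, hrs⟩ := IsLocalization.surj (hU.primeIdealOf ⟨x, hx⟩).asIdeal.primeCompl b
    refine ⟨r, s.1, s.2, ?_⟩
    rw [schaf_algebraMap_eq hx, schaf_algebraMap_eq hx, ← map_mul]
    exact congrArg _ hrs
  · rintro ⟨r, s, hs, h⟩
    obtain ⟨u, hu⟩ := (schaf_isUnit_germ_iff hU hx s).2 hs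
    refine ⟨X.presheaf.germ U x hx r * ↑u⁻¹, ?_⟩
    have hs0 : algebraMap Γ(X, U) X.functionField s ≠ 0 := by
      intro h0
      rw [← map_zero (algebraMap Γ(X, U) X.functionField)] at h0
      rw [schaf_algebraMap_injective U h0] at hs
      exact hs (Ideal.zero_mem _)
    apply mul_right_cancel₀ hs0
    rw [h, schaf_algebraMap_eq hx s, ← map_mul, ← hu, mul_assoc, Units.inv_mul, mul_one,
      schaf_algebraMap_eq hx r]

theorem sch_affine_unit_iff {U : X.Opens} (hU : IsAffineOpen U) [Nonempty U] {x : X} (hx : x ∈ U)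
    (s : Γ(X, U)) :
    SchUnit x (algebraMap Γ(X, U) X.functionField s) ↔
      s ∉ (hU.primeIdealOf ⟨x, hx⟩).asIdeal := by
  constructor
  · rintro ⟨-, ⟨b, hb⟩, h0⟩
    rw [← schaf_isUnit_germ_iff hU hx s]
    have h1 : algebraMap (X.presheaf.stalk x) X.functionField (b * X.presheaf.germ U x hx s)
        = algebraMap (X.presheaf.stalk x) X.functionField 1 := by
      rw [map_mul, map_one, hb, ← schaf_algebraMap_eq hx s, inv_mul_cancel₀ h0]
    have h2 := IsFractionRing.injective (X.presheaf.stalk x) X.functionField h1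
    exact IsUnit.of_mul_eq_one b (by rw [mul_comm]; exact h2)
  · intro hs
    have hs0 : algebraMap Γ(X, U) X.functionField s ≠ 0 := by
      intro h0
      rw [← map_zero (algebraMap Γ(X, U) X.functionField)] at h0
      rw [schaf_algebraMap_injective U h0] at hs
      exact hs (Ideal.zero_mem _)
    refine ⟨schaf_algebraMap_mem hx s, ?_, hs0⟩
    rw [sch_affine_mem_iff hU hx]
    exact ⟨1, s, hs, by rw [inv_mul_cancel₀ hs0, map_one]⟩

theorem sch_affine_specializes_iff {U : X.Opens} (hU : IsAffineOpen U) {z x : X} (hz : z ∈ U)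
    (hx : x ∈ U) :
    z ⤳ x ↔ (hU.primeIdealOf ⟨z, hz⟩).asIdeal ≤ (hU.primeIdealOf ⟨x, hx⟩).asIdeal := by
  have h1 := hU.fromSpec.isOpenEmbedding.isInducing.specializes_iff
    (x := hU.primeIdealOf ⟨z, hz⟩) (y := hU.primeIdealOf ⟨x, hx⟩)
  rw [hU.fromSpec_primeIdealOf, hU.fromSpec_primeIdealOf] at h1
  rw [h1]
  exact (PrimeSpectrum.le_iff_specializes _ _).symm

theorem sch_affine_coheight {U : X.Opens} (hU : IsAffineOpen U) {z : X} (hz : z ∈ U) :
    coheight z = (hU.primeIdealOf ⟨z, hz⟩).asIdeal.height := by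
  have h1 := idealHeight_eq_coheight Γ(X, U) (hU.primeIdealOf ⟨z, hz⟩)
  have h2 := coheight_eq_of_isOpenImmersion (x := hU.primeIdealOf ⟨z, hz⟩) hU.fromSpec
  have h3 : hU.fromSpec.base (hU.primeIdealOf ⟨z, hz⟩) = z := hU.fromSpec_primeIdealOf ⟨z, hz⟩
  rw [h3] at h2
  exact h2.trans h1.symm

theorem sch_affine_exists_point {U : X.Opens} (hU : IsAffineOpen U)
    (q : PrimeSpectrum Γ(X, U)) : ∃ (z : X) (hz : z ∈ U), hU.primeIdealOf ⟨z, hz⟩ = q := by
  have hz : hU.fromSpec q ∈ U := by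
    have : hU.fromSpec q ∈ Set.range hU.fromSpec := ⟨q, rfl⟩
    rw [hU.range_fromSpec] at this
    exact this
  refine ⟨hU.fromSpec q, hz, ?_⟩
  apply hU.fromSpec.isOpenEmbedding.injective
  exact hU.fromSpec_primeIdealOf ⟨_, hz⟩

/-- `⋂_{x ∈ U} O_x` is the image of `Γ(X, U)` -/
theorem sch_affine_range {U : X.Opens} (hU : IsAffineOpen U) [Nonempty U] (a : X.functionField) :
    a ∈ schG U ↔ ∃ r : Γ(X, U), algebraMap Γ(X, U) X.functionField r = a := by
  rw [mem_schG]
  constructor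
  · intro h
    let I : Ideal Γ(X, U) :=
      { carrier := {s | ∃ r : Γ(X, U), a * algebraMap Γ(X, U) X.functionField s
          = algebraMap Γ(X, U) X.functionField r}
        add_mem' := by
          rintro s t ⟨r, hr⟩ ⟨r', hr'⟩
          exact ⟨r + r', by rw [map_add, map_add, mul_add, hr, hr']⟩
        zero_mem' := ⟨0, by rw [map_zero, mul_zero]⟩
        smul_mem' := by
          rintro c s ⟨r, hr⟩
          exact ⟨c * r, by rw [smul_eq_mul, map_mul, map_mul, mul_left_comm, hr]⟩ }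
    have hI : I = ⊤ := by
      by_contra hne
      obtain ⟨m, hm, hIm⟩ := Ideal.exists_le_maximal I hne
      obtain ⟨z, hz, hzq⟩ := sch_affine_exists_point hU ⟨m, hm.isPrime⟩
      obtain ⟨r, s, hs, hrs⟩ := (sch_affine_mem_iff hU hz a).1 (h z hz)
      rw [hzq] at hs
      exact hs (hIm ⟨r, hrs⟩)
    have h1 : (1 : Γ(X, U)) ∈ I := by rw [hI]; trivial
    obtain ⟨r, hr⟩ := h1
    exact ⟨r, by rw [← hr, map_one, mul_one]⟩
  · rintro ⟨r, rfl⟩ x hx
    exact schaf_algebraMap_mem hx r

end Claimed.Agent.R242
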