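import Claimed.Agent.R242.Sch.GeoStalk
import Claimed.Agent.R242.Sch.GeoAffine

/-!
# SCH-GEO-AFFB : consequences of the affine dictionary, in the language of `schG U`

Paper free.  Everything follows from `GeoAffine.lean` and `GeoStalk.lean` (cite them, they are
sorried leaves of somebody else) and, for `sch_basicOpen`, from Mathlib:
`X.basicOpen`, `IsAffineOpen.basicOpen`, `IsAffineOpen.isLocalization_basicOpen`,
`Scheme.mem_basicOpen`, `X.basicOpen_le`.
-/

set_option autoImplicit false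

namespace Claimed.Agent.R242

open AlgebraicGeometry CategoryTheory Order
open Claims.C0408

variable {X : Scheme.{0}} [IsIntegral X]

theorem schG_le_schO {U : X.Opens} {x : X} (hx : x ∈ U) : schG U ≤ schO x :=
  fun _ ha => mem_schG.1 ha x hx

theorem schG_mono {U V : X.Opens} (h : U ≤ V) : schG V ≤ schG U :=
  fun _ ha => mem_schG.2 fun x hx => mem_schG.1 ha x (h hx)

/-- elements of `O_x` are fractions `r / s`, `r, s` regular on `U`, `s` a unit at `x` -/
theorem sch_affine_frac {U : X.Opens} (hU : IsAffineOpen U) {x : X} (hx : x ∈ U)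
    {a : X.functionField} (ha : a ∈ schO x) :
    ∃ r s : X.functionField, r ∈ schG U ∧ s ∈ schG U ∧ SchUnit x s ∧ a * s = r := by
  have : Nonempty U := ⟨⟨x, hx⟩⟩
  obtain ⟨r, s, hs, hrs⟩ := (sch_affine_mem_iff hU hx a).1 ha
  exact ⟨_, _, (sch_affine_range hU _).2 ⟨r, rfl⟩, (sch_affine_range hU _).2 ⟨s, rfl⟩,
    (sch_affine_unit_iff hU hx s).2 hs, hrs⟩

/-- units of `O_x` are fractions `r / s` of units at `x` -/
theorem sch_affine_frac_unit {U : X.Opens} (hU : IsAffineOpen U) {x : X} (hx : x ∈ U)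
    {a : X.functionField} (ha : SchUnit x a) :
    ∃ r s : X.functionField, r ∈ schG U ∧ s ∈ schG U ∧ SchUnit x s ∧ SchUnit x r ∧ a * s = r := by
  obtain ⟨r, s, hr, hs, hsu, hrs⟩ := sch_affine_frac hU hx ha.1
  exact ⟨r, s, hr, hs, hsu, hrs ▸ ha.mul hsu, hrs⟩

/-- `K = Frac (schG U)` -/
theorem sch_affine_fracK {U : X.Opens} (hU : IsAffineOpen U) (hne : ∃ x : X, x ∈ U)
    (a : X.functionField) :
    ∃ r s : X.functionField, r ∈ schG U ∧ s ∈ schG U ∧ s ≠ 0 ∧ a * s = r := by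
  obtain ⟨x, hx⟩ := hne
  have : Nonempty U := ⟨⟨x, hx⟩⟩
  have := functionField_isFractionRing_of_isAffineOpen X U hU
  obtain ⟨r, s, hs, rfl⟩ := IsFractionRing.div_surjective (A := Γ(X, U)) a
  have hs0 : algebraMap Γ(X, U) X.functionField s ≠ 0 :=
    IsFractionRing.to_map_ne_zero_of_mem_nonZeroDivisors hs
  exact ⟨_, _, (sch_affine_range hU _).2 ⟨r, rfl⟩, (sch_affine_range hU _).2 ⟨s, rfl⟩, hs0,
    div_mul_cancel₀ _ hs0⟩

/-- if `z` does not specialise to `x`, some function on `U` vanishes at `z` and not at `x` -/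
theorem sch_affine_sep {U : X.Opens} (hU : IsAffineOpen U) {z x : X} (hz : z ∈ U) (hx : x ∈ U)
    (h : ¬ z ⤳ x) : ∃ s : X.functionField, s ∈ schG U ∧ SchUnit x s ∧ ¬ SchUnit z s := by
  have : Nonempty U := ⟨⟨x, hx⟩⟩
  rw [sch_affine_specializes_iff hU hz hx, SetLike.not_le_iff_exists] at h
  obtain ⟨s, hsz, hsx⟩ := h
  refine ⟨_, (sch_affine_range hU _).2 ⟨s, rfl⟩, (sch_affine_unit_iff hU hx s).2 hsx, ?_⟩
  rw [sch_affine_unit_iff hU hz s, not_not]
  exact hsz

/-- the basic open subset `{g ≠ 0}` of an affine open subset -/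
theorem sch_basicOpen {U : X.Opens} (hU : IsAffineOpen U) {g : X.functionField}
    (hg : g ∈ schG U) (hg0 : g ≠ 0) :
    ∃ U' : X.Opens, IsAffineOpen U' ∧ U' ≤ U ∧ (∀ z : X, z ∈ U → (z ∈ U' ↔ SchUnit z g)) ∧
      ∀ a : X.functionField, a ∈ schG U' ↔ ∃ k : ℕ, a * g ^ k ∈ schG U := by
  by_cases hne : Nonempty U
  swap
  · -- `U` is empty
    have hemp : ∀ z : X, z ∉ U := fun z hz => hne ⟨⟨z, hz⟩⟩
    refine ⟨U, hU, le_rfl, fun z hz => absurd hz (hemp z), fun a => ?_⟩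
    exact ⟨fun _ => ⟨0, mem_schG.2 fun z hz => absurd hz (hemp z)⟩,
      fun _ => mem_schG.2 fun z hz => absurd hz (hemp z)⟩
  obtain ⟨g₀, rfl⟩ := (sch_affine_range hU g).1 hg
  have hmem : ∀ z : X, z ∈ U → (z ∈ X.basicOpen g₀ ↔
      SchUnit z (algebraMap Γ(X, U) X.functionField g₀)) := by
    intro z hz
    rw [Scheme.mem_basicOpen X g₀ z hz, ← sch_unit_algebraMap,
      Scheme.algebraMap_germ_eq_germToFunctionField]
    rfl
  have hgen : genericPoint X ∈ U := sch_generic_mem U hne.some.2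
  have hgen' : genericPoint X ∈ X.basicOpen g₀ := by
    rw [Scheme.mem_basicOpen X g₀ _ hgen]
    exact (isUnit_iff_ne_zero (a := X.presheaf.germ U (genericPoint X) hgen g₀)).2 hg0
  have hne' : Nonempty (X.basicOpen g₀) := ⟨⟨_, hgen'⟩⟩
  have hres : ∀ r : Γ(X, U), algebraMap Γ(X, X.basicOpen g₀) X.functionField
      (algebraMap Γ(X, U) Γ(X, X.basicOpen g₀) r) = algebraMap Γ(X, U) X.functionField r := by
    intro r
    exact X.presheaf.germ_res_apply (homOfLE (X.basicOpen_le g₀)) (genericPoint X) hgen' r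
  refine ⟨X.basicOpen g₀, hU.basicOpen g₀, X.basicOpen_le g₀, hmem, fun a => ⟨fun ha => ?_, ?_⟩⟩
  · obtain ⟨a', rfl⟩ := (sch_affine_range (hU.basicOpen g₀) a).1 ha
    have hloc := hU.isLocalization_basicOpen g₀
    obtain ⟨⟨r, ⟨_, k, rfl⟩⟩, hr⟩ := IsLocalization.surj (Submonoid.powers g₀) a'
    refine ⟨k, (sch_affine_range hU _).2 ⟨r, ?_⟩⟩
    rw [← hres r, ← hr, map_mul, hres, map_pow]
  · rintro ⟨k, hk⟩
    refine mem_schG.2 fun z hz => ?_
    have hzU : z ∈ U := X.basicOpen_le g₀ hz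
    have hu := ((hmem z hzU).1 hz).pow k
    have : a = a * algebraMap Γ(X, U) X.functionField g₀ ^ k *
        (algebraMap Γ(X, U) X.functionField g₀ ^ k)⁻¹ := by
      rw [mul_assoc, mul_inv_cancel₀ hu.2.2, mul_one]
    rw [this]
    exact (schO z).mul_mem (mem_schG.1 hk z hzU) hu.2.1

end Claimed.Agent.R242
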