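import Claimed.Agent.R242.Sch.GeoStalk

/-!
# SCH-GEO-CLOSED : closed points

Paper free.  Mathlib: `IsProper` ⇒ `QuasiCompact π` ⇒ `CompactSpace X`
(`QuasiCompact.isCompact_preimage` / `compactSpace_of_...` over the affine base `Spec ℂ`),
`LocallyOfFiniteType.jacobsonSpace`, `IsClosed.exists_closed_singleton`,
`nonempty_inter_closedPoints`, `specializes_iff_mem_closure`, `sch_specializes_le`.
-/

set_option autoImplicit false

namespace Claimed.Agent.R242

open AlgebraicGeometry CategoryTheory Order
open Claims.C0408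

variable {X : Scheme.{0}}

theorem sch_compactSpace (π : X ⟶ Spec (CommRingCat.of ℂ)) [IsProper π] : CompactSpace X :=
  QuasiCompact.compactSpace_of_compactSpace π

theorem sch_jacobsonSpace (π : X ⟶ Spec (CommRingCat.of ℂ)) [LocallyOfFiniteType π] :
    JacobsonSpace X := by
  have : JacobsonSpace (Spec (CommRingCat.of ℂ)) :=
    PrimeSpectrum.isJacobsonRing_iff_jacobsonSpace.mp (inferInstanceAs (IsJacobsonRing ℂ))
  exact LocallyOfFiniteType.jacobsonSpace π

/-- every point specialises to a closed point -/
theorem sch_exists_closed [CompactSpace X] (x : X) :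
    ∃ p : X, IsClosed ({p} : Set X) ∧ x ⤳ p := by
  obtain ⟨p, hp, hcl⟩ := IsClosed.exists_closed_singleton (S := closure ({x} : Set X))
    isClosed_closure ⟨x, subset_closure rfl⟩
  exact ⟨p, hcl, specializes_iff_mem_closure.mpr hp⟩

/-- every point of an open subset specialises to a closed point of `X` lying in this subset -/
theorem sch_exists_closed_in [JacobsonSpace X] (U : X.Opens) {x : X} (hx : x ∈ U) :
    ∃ p : X, p ∈ U ∧ IsClosed ({p} : Set X) ∧ x ⤳ p := by
  obtain ⟨p, ⟨hp1, hp2⟩, hp3⟩ := nonempty_inter_closedPoints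
    (Z := closure ({x} : Set X) ∩ (U : Set X)) ⟨x, subset_closure rfl, hx⟩
    (isClosed_closure.isLocallyClosed.inter U.isOpen.isLocallyClosed)
  exact ⟨p, hp2, hp3, specializes_iff_mem_closure.mpr hp1⟩

/-- open subsets are stable under generalisation -/
theorem sch_mem_of_specializes (U : X.Opens) {z x : X} (h : z ⤳ x) (hx : x ∈ U) : z ∈ U :=
  h.mem_open U.isOpen hx

/-- regularity on `U` can be tested at the closed points -/
theorem sch_mem_schG_of_closed [IsIntegral X] [JacobsonSpace X] (U : X.Opens)
    (a : X.functionField) (h : ∀ q : X, q ∈ U → IsClosed ({q} : Set X) → a ∈ schO q) :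
    a ∈ schG U := by
  rw [mem_schG]
  intro x hx
  obtain ⟨p, hpU, hcl, hsp⟩ := sch_exists_closed_in U hx
  exact sch_specializes_le hsp (h p hpU hcl)

end Claimed.Agent.R242
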