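import Claimed.Agent.R242.Sch.GeoAffine
import Claimed.Agent.R242.Sch.GeoOrd

/-!
# SCH-GEO-FIN : a principal divisor has finite support

Paper free.  ROUTE.  `X` is covered by finitely many affine open subsets (`CompactSpace X`,
`X.isBasis_affineOpens` or `X.affineCover.finiteSubcover`).  In an affine open `U`, `R = Γ(X, U)`
noetherian domain with fraction field `K`, write `f = a / b`, `a b ≠ 0`.  If `z ∈ U`,
`coheight z = 1` and `ord f z ≠ 0`, then `a b` lies in the prime `p_z` of `z` (otherwise `f` is a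
unit of `O_z`: `sch_affine_unit_iff`, `sch_ord_unit`), and `p_z` has height one
(`sch_affine_coheight`), so it is a minimal prime of `(a b)`
(`Ideal.finite_minimalPrimes_of_isNoetherianRing`); `z ↦ p_z` is injective
(`fromSpec_primeIdealOf`).
-/

set_option autoImplicit false

namespace Claimed.Agent.R242

open AlgebraicGeometry CategoryTheory Order
open Claims.C0408

variable {X : Scheme.{0}} [IsIntegral X] [IsLocallyNoetherian X]

/-- the affine local statement -/
theorem sch_ord_support_finite_affine {U : X.Opens} (hU : IsAffineOpen U) (f : X.functionField) :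
    {z : X | z ∈ U ∧ Scheme.ord f z ≠ 0}.Finite := by
  by_cases hne : Nonempty U
  swap
  · convert Set.finite_empty
    ext z
    simp only [Set.mem_ofPred_eq, Set.mem_empty_iff_false, iff_false, not_and]
    intro hz
    exact absurd ⟨⟨z, hz⟩⟩ hne
  by_cases hf : f = 0
  · subst hf
    convert Set.finite_empty
    ext z
    simp
  have hfr : IsFractionRing Γ(X, U) X.functionField :=
    functionField_isFractionRing_of_isAffineOpen X U hU
  have hnoeth : IsNoetherianRing Γ(X, U) := IsLocallyNoetherian.component_noetherian ⟨U, hU⟩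
  obtain ⟨a, b, hb, rfl⟩ := IsFractionRing.div_surjective (A := Γ(X, U)) f
  have hb0 : b ≠ 0 := nonZeroDivisors.ne_zero hb
  have ha0 : a ≠ 0 := by
    rintro rfl
    simp at hf
  have hab : a * b ≠ 0 := mul_ne_zero ha0 hb0
  have hfin : ((Ideal.span {a * b}).minimalPrimes).Finite :=
    Ideal.finite_minimalPrimes_of_isNoetherianRing _ _
  classical
  let φ : X → Ideal Γ(X, U) := fun z =>
    if hz : z ∈ U then (hU.primeIdealOf ⟨z, hz⟩).asIdeal else ⊥
  refine Set.Finite.of_finite_image (f := φ) (hfin.subset ?_) ?_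
  · rintro _ ⟨z, ⟨hzU, hz⟩, rfl⟩
    have hφ : φ z = (hU.primeIdealOf ⟨z, hzU⟩).asIdeal := dif_pos hzU
    rw [hφ]
    have hco : coheight z = 1 := by
      by_contra h
      exact hz (Scheme.ord_eq_zero_of_coheight_neq_one h _)
    have hht : (hU.primeIdealOf ⟨z, hzU⟩).asIdeal.height = 1 := by
      rw [← sch_affine_coheight hU hzU, hco]
    have hmem : a * b ∈ (hU.primeIdealOf ⟨z, hzU⟩).asIdeal := by
      by_contra hnot
      have hna : a ∉ (hU.primeIdealOf ⟨z, hzU⟩).asIdeal := fun h =>
        hnot (Ideal.mul_mem_right _ _ h)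
      have hnb : b ∉ (hU.primeIdealOf ⟨z, hzU⟩).asIdeal := fun h =>
        hnot (Ideal.mul_mem_left _ _ h)
      have hua := sch_ord_unit ((sch_affine_unit_iff hU hzU a).mpr hna)
      have hub := sch_ord_unit ((sch_affine_unit_iff hU hzU b).mpr hnb)
      apply hz
      have h1 : algebraMap Γ(X, U) X.functionField a ≠ 0 := by
        simpa using ha0
      have h2 : algebraMap Γ(X, U) X.functionField b ≠ 0 := by
        simpa using hb0
      rw [sch_ord_div h1 h2, hua, hub, sub_zero]
    have hfh : (hU.primeIdealOf ⟨z, hzU⟩).asIdeal.FiniteHeight :=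
      ⟨Or.inr (by rw [hht]; exact ENat.one_ne_top)⟩
    refine Ideal.mem_minimalPrimes_of_height_le ?_ ?_
    · rw [Ideal.span_singleton_le_iff_mem]
      exact hmem
    · rw [hht]
      exact Ideal.one_le_height_span_singleton_of_mem_nonZeroDivisors
        (mem_nonZeroDivisors_of_ne_zero hab)
  · rintro z ⟨hzU, -⟩ w ⟨hwU, -⟩ hzw
    have hφz : φ z = (hU.primeIdealOf ⟨z, hzU⟩).asIdeal := dif_pos hzU
    have hφw : φ w = (hU.primeIdealOf ⟨w, hwU⟩).asIdeal := dif_pos hwU
    rw [hφz, hφw] at hzw
    have h : hU.primeIdealOf ⟨z, hzU⟩ = hU.primeIdealOf ⟨w, hwU⟩ := PrimeSpectrum.ext hzw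
    have h1 := hU.fromSpec_primeIdealOf ⟨z, hzU⟩
    have h2 := hU.fromSpec_primeIdealOf ⟨w, hwU⟩
    rw [h] at h1
    exact h1.symm.trans h2

theorem sch_ord_support_finite [CompactSpace X] (f : X.functionField) :
    (Function.support (Scheme.ord f)).Finite := by
  have hcov : ∀ x : X, ∃ U : X.Opens, IsAffineOpen U ∧ x ∈ U := by
    intro x
    obtain ⟨U, hU, hx, -⟩ := X.isBasis_affineOpens.exists_subset_of_mem_open
      (Set.mem_univ x) isOpen_univ
    obtain ⟨V, hV, rfl⟩ := hU
    exact ⟨V, hV, hx⟩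
  choose U hU hxU using hcov
  obtain ⟨t, ht⟩ := isCompact_univ.elim_finite_subcover (fun x => (U x : Set X))
    (fun x => (U x).isOpen) (fun x _ => Set.mem_iUnion.mpr ⟨x, hxU x⟩)
  refine Set.Finite.subset (t.finite_toSet.biUnion
    (fun x _ => sch_ord_support_finite_affine (hU x) f)) ?_
  intro z hz
  obtain ⟨x, hx⟩ := Set.mem_iUnion.mp (ht (Set.mem_univ z))
  obtain ⟨hxt, hzx⟩ := Set.mem_iUnion.mp hx
  exact Set.mem_biUnion hxt ⟨hzx, hz⟩

end Claimed.Agent.R242
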