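import Claimed.Agent.R242.Sch.GeoAffineB
import Claimed.Agent.R242.Sch.GeoClosed

/-!
# SCH-GEO-PTS : closed points of a chart = points of the zero set (Nullstellensatz)

Paper free.  `h : SchChart U C gen`, `R = Γ(X, U)`.
* `SchChart.exists_lift`: as `range (aeval gen) = schG U = range (R → K)` (`sch_affine_range`) and
  `R → K` is injective, `aeval gen` factors through a surjective ring homomorphism
  `ψ : ℂ[z, x] → R`, with kernel `C.ideal`.
* closed point `x ∈ U` ⇒ `primeIdealOf x` maximal (`IsAffineOpen.primeIdealOf_isMaximal_of_isClosed`)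
  ⇒ its preimage under `ψ` is a maximal ideal of `ℂ[z, x]`, so it is the vanishing ideal of a point
  `w` (`MvPolynomial.isMaximal_iff_eq_vanishingIdeal_singleton`), `w ∈ C.pts` as `rel i ∈ ker ψ`;
  `eval w P ≠ 0 ↔ ψ P ∉ primeIdealOf x ↔ SchUnit x (aeval gen P)` (`sch_affine_unit_iff`).
* conversely `w ∈ C.pts`: the vanishing ideal of `w` contains `C.ideal = ker ψ`, its image is a
  maximal ideal of `R`, the corresponding point `x` (`sch_affine_exists_point`) is closed in `U`,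
  hence `{x}` is locally closed in `X`, hence closed
  (`isClosed_singleton_of_isLocallyClosed_singleton`).
* the last two lemmas: `sch_affine_frac`, `sch_affine_frac_unit`, `SchChart.range_eq`.
-/

set_option autoImplicit false

namespace Claimed.Agent.R242

open AlgebraicGeometry CategoryTheory Order MvPolynomial
open Claims.C0408

variable {X : Scheme.{0}} [IsIntegral X] [Algebra ℂ X.functionField] {n : ℕ}

omit [Algebra ℂ X.functionField] in
theorem sch_algebraMap_injective (U : X.Opens) [Nonempty U] :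
    Function.Injective (algebraMap Γ(X, U) X.functionField) :=
  Scheme.germToFunctionField_injective X U

theorem SchChart.exists_lift {U : X.Opens} {C : Chart n}
    {gen : Fin n ⊕ Fin C.c → X.functionField} (h : SchChart U C gen) [Nonempty U] :
    ∃ ψ : MvPolynomial (Fin n ⊕ Fin C.c) ℂ →+* Γ(X, U), Function.Surjective ψ ∧
      ∀ P, algebraMap Γ(X, U) X.functionField (ψ P) = aeval gen P := by
  have hinj := sch_algebraMap_injective (X := X) U
  have hmem : ∀ P : MvPolynomial (Fin n ⊕ Fin C.c) ℂ,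
      (aeval gen : _ →ₐ[ℂ] X.functionField).toRingHom P ∈
        (algebraMap Γ(X, U) X.functionField).range := by
    intro P
    obtain ⟨r, hr⟩ := (sch_affine_range h.affine _).1 ((h.range_eq _).2 ⟨P, rfl⟩)
    exact ⟨r, hr⟩
  let e : Γ(X, U) ≃+* (algebraMap Γ(X, U) X.functionField).range :=
    RingEquiv.ofBijective (algebraMap Γ(X, U) X.functionField).rangeRestrict
      ⟨fun a b hab => hinj (congrArg Subtype.val hab), RingHom.rangeRestrict_surjective _⟩
  have he : ∀ y, algebraMap Γ(X, U) X.functionField (e.symm y) = y.1 := by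
    intro y
    have : e (e.symm y) = y := e.apply_symm_apply y
    exact congrArg Subtype.val this
  refine ⟨e.symm.toRingHom.comp
    ((aeval gen : _ →ₐ[ℂ] X.functionField).toRingHom.codRestrict _ hmem), ?_, ?_⟩
  · intro r
    obtain ⟨P, hP⟩ := (h.range_eq _).1 ((sch_affine_range h.affine _).2 ⟨r, rfl⟩)
    refine ⟨P, hinj ?_⟩
    show algebraMap Γ(X, U) X.functionField (e.symm _) = _
    rw [he]
    exact hP
  · intro P
    show algebraMap Γ(X, U) X.functionField (e.symm _) = _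
    rw [he]
    rfl

theorem sch_chart_point_of_closed {U : X.Opens} {C : Chart n}
    {gen : Fin n ⊕ Fin C.c → X.functionField} (h : SchChart U C gen) {x : X} (hx : x ∈ U)
    (hc : IsClosed ({x} : Set X)) :
    ∃ w : Fin n ⊕ Fin C.c → ℂ, w ∈ C.pts ∧
      ∀ P : MvPolynomial (Fin n ⊕ Fin C.c) ℂ, eval w P ≠ 0 ↔ SchUnit x (aeval gen P) := by
  have : Nonempty U := ⟨⟨x, hx⟩⟩
  obtain ⟨ψ, hsurj, hψ⟩ := h.exists_lift
  have hmax : (h.affine.primeIdealOf ⟨x, hx⟩).asIdeal.IsMaximal :=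
    h.affine.primeIdealOf_isMaximal_of_isClosed ⟨x, hx⟩ hc
  have hmax' : ((h.affine.primeIdealOf ⟨x, hx⟩).asIdeal.comap ψ).IsMaximal :=
    Ideal.comap_isMaximal_of_surjective ψ hsurj
  obtain ⟨w, hw⟩ := MvPolynomial.isMaximal_iff_eq_vanishingIdeal_singleton.1 hmax'
  have key : ∀ P : MvPolynomial (Fin n ⊕ Fin C.c) ℂ,
      eval w P = 0 ↔ ψ P ∈ (h.affine.primeIdealOf ⟨x, hx⟩).asIdeal := by
    intro P
    rw [← Ideal.mem_comap, hw, mem_vanishingIdeal_singleton_iff, aeval_eq_eval]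
  refine ⟨w, fun i => ?_, fun P => ?_⟩
  · rw [key]
    have : ψ (C.rel i) = 0 := by
      apply sch_algebraMap_injective (X := X) U
      rw [hψ, map_zero, h.ker]
      exact Ideal.subset_span ⟨i, rfl⟩
    rw [this]
    exact Ideal.zero_mem _
  · rw [← hψ, sch_affine_unit_iff h.affine hx, Ne, key]

theorem sch_chart_closed_of_point [JacobsonSpace X] {U : X.Opens} {C : Chart n}
    {gen : Fin n ⊕ Fin C.c → X.functionField} (h : SchChart U C gen)
    {w : Fin n ⊕ Fin C.c → ℂ} (hw : w ∈ C.pts) :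
    ∃ x : X, x ∈ U ∧ IsClosed ({x} : Set X) ∧
      ∀ P : MvPolynomial (Fin n ⊕ Fin C.c) ℂ, eval w P ≠ 0 ↔ SchUnit x (aeval gen P) := by
  obtain ⟨x₀, hx₀⟩ := h.ne
  have : Nonempty U := ⟨⟨x₀, hx₀⟩⟩
  obtain ⟨ψ, hsurj, hψ⟩ := h.exists_lift
  have hI : (vanishingIdeal ℂ {w} : Ideal (MvPolynomial (Fin n ⊕ Fin C.c) ℂ)).IsMaximal :=
    inferInstance
  have hker : RingHom.ker ψ ≤ vanishingIdeal ℂ {w} := by
    intro P hP
    have h0 : aeval gen P = 0 := by rw [← hψ, (RingHom.mem_ker).1 hP, map_zero]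
    have hP' : P ∈ C.ideal := (h.ker P).1 h0
    refine (Ideal.span_le.2 ?_) hP'
    rintro _ ⟨i, rfl⟩
    show C.rel i ∈ vanishingIdeal ℂ {w}
    rw [mem_vanishingIdeal_singleton_iff, aeval_eq_eval]
    exact hw i
  have hcomap : ((vanishingIdeal ℂ {w} : Ideal (MvPolynomial (Fin n ⊕ Fin C.c) ℂ)).map ψ).comap ψ =
      vanishingIdeal ℂ {w} := by
    rw [Ideal.comap_map_of_surjective ψ hsurj]
    exact sup_eq_left.2 (by
      have : Ideal.comap ψ ⊥ = RingHom.ker ψ := rfl
      rw [this]; exact hker)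
  have hmax : ((vanishingIdeal ℂ {w} : Ideal (MvPolynomial (Fin n ⊕ Fin C.c) ℂ)).map ψ).IsMaximal := by
    rcases Ideal.map_eq_top_or_isMaximal_of_surjective ψ hsurj hI with htop | hm
    · exfalso
      rw [htop, Ideal.comap_top] at hcomap
      exact hI.ne_top hcomap.symm
    · exact hm
  obtain ⟨z, hz, hzq⟩ := sch_affine_exists_point h.affine ⟨_, hmax.isPrime⟩
  have hzI : (h.affine.primeIdealOf ⟨z, hz⟩).asIdeal =
      (vanishingIdeal ℂ {w} : Ideal (MvPolynomial (Fin n ⊕ Fin C.c) ℂ)).map ψ := by rw [hzq]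
  refine ⟨z, hz, ?_, fun P => ?_⟩
  · apply isClosed_singleton_of_isLocallyClosed_singleton
    have hs : ({z} : Set X) = (U : Set X) ∩ closure {z} := by
      apply Set.Subset.antisymm
      · rintro _ rfl
        exact ⟨hz, subset_closure rfl⟩
      · rintro y ⟨hy, hyz⟩
        have hsp : z ⤳ y := specializes_iff_mem_closure.2 hyz
        have hle := (sch_affine_specializes_iff h.affine hz hy).1 hsp
        have hzmax : (h.affine.primeIdealOf ⟨z, hz⟩).asIdeal.IsMaximal := by rw [hzI]; exact hmax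
        have heq : (h.affine.primeIdealOf ⟨z, hz⟩).asIdeal = (h.affine.primeIdealOf ⟨y, hy⟩).asIdeal :=
          hzmax.eq_of_le (h.affine.primeIdealOf ⟨y, hy⟩).isPrime.ne_top hle
        have heq' : h.affine.primeIdealOf ⟨z, hz⟩ = h.affine.primeIdealOf ⟨y, hy⟩ :=
          PrimeSpectrum.ext heq
        have h1 := h.affine.fromSpec_primeIdealOf ⟨z, hz⟩
        have h2 := h.affine.fromSpec_primeIdealOf ⟨y, hy⟩
        rw [heq'] at h1
        exact (h2.symm.trans h1 : y = z)
    rw [hs]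
    exact U.isOpen.isLocallyClosed.inter isClosed_closure.isLocallyClosed
  · rw [← hψ, sch_affine_unit_iff h.affine hz, hzI, ← Ideal.mem_comap, hcomap,
      mem_vanishingIdeal_singleton_iff, aeval_eq_eval]

/-- `Model.RegAtPt` is membership in `schO x` -/
theorem sch_chart_reg_iff {U : X.Opens} {C : Chart n}
    {gen : Fin n ⊕ Fin C.c → X.functionField} (h : SchChart U C gen) {x : X} (hx : x ∈ U)
    {w : Fin n ⊕ Fin C.c → ℂ}
    (hw : ∀ P : MvPolynomial (Fin n ⊕ Fin C.c) ℂ, eval w P ≠ 0 ↔ SchUnit x (aeval gen P))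
    (a : X.functionField) :
    (∃ P Q : MvPolynomial (Fin n ⊕ Fin C.c) ℂ,
      eval w Q ≠ 0 ∧ a * aeval gen Q = aeval gen P) ↔ a ∈ schO x := by
  constructor
  · rintro ⟨P, Q, hQ, e⟩
    obtain ⟨-, hQi, hQ0⟩ := (hw Q).1 hQ
    have hP : aeval gen P ∈ schO x := schG_le_schO hx ((h.range_eq _).2 ⟨P, rfl⟩)
    have : a = aeval gen P * (aeval gen Q)⁻¹ := by
      rw [← e, mul_assoc, mul_inv_cancel₀ hQ0, mul_one]
    rw [this]
    exact (schO x).mul_mem hP hQi
  · intro ha
    obtain ⟨r, s, hr, hs, hsu, e⟩ := sch_affine_frac h.affine hx ha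
    obtain ⟨P, rfl⟩ := (h.range_eq _).1 hr
    obtain ⟨Q, rfl⟩ := (h.range_eq _).1 hs
    exact ⟨P, Q, (hw Q).2 hsu, e⟩

/-- `Model.UnitAtPt` is `SchUnit x` -/
theorem sch_chart_unit_iff {U : X.Opens} {C : Chart n}
    {gen : Fin n ⊕ Fin C.c → X.functionField} (h : SchChart U C gen) {x : X} (hx : x ∈ U)
    {w : Fin n ⊕ Fin C.c → ℂ}
    (hw : ∀ P : MvPolynomial (Fin n ⊕ Fin C.c) ℂ, eval w P ≠ 0 ↔ SchUnit x (aeval gen P))
    (a : X.functionField) :
    (∃ P Q : MvPolynomial (Fin n ⊕ Fin C.c) ℂ,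
      eval w Q ≠ 0 ∧ eval w P ≠ 0 ∧ a * aeval gen Q = aeval gen P) ↔ SchUnit x a := by
  constructor
  · rintro ⟨P, Q, hQ, hP, e⟩
    have hQu := (hw Q).1 hQ
    have hPu := (hw P).1 hP
    have : a = aeval gen P * (aeval gen Q)⁻¹ := by
      rw [← e, mul_assoc, mul_inv_cancel₀ hQu.2.2, mul_one]
    rw [this]
    exact hPu.mul hQu.inv
  · intro ha
    obtain ⟨r, s, hr, hs, hsu, hru, e⟩ := sch_affine_frac_unit h.affine hx ha
    obtain ⟨P, rfl⟩ := (h.range_eq _).1 hr
    obtain ⟨Q, rfl⟩ := (h.range_eq _).1 hs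
    exact ⟨P, Q, (hw Q).2 hsu, (hw P).2 hru, e⟩

/-- a chart of `U` is a chart of the field `K` -/
theorem SchChart.isKChart {U : X.Opens} {C : Chart n}
    {gen : Fin n ⊕ Fin C.c → X.functionField} (h : SchChart U C gen) : IsKChart C gen := by
  refine ⟨h.ker, fun a => ?_⟩
  obtain ⟨r, s, hr, hs, hs0, e⟩ := sch_affine_fracK h.affine h.ne a
  obtain ⟨P, rfl⟩ := (h.range_eq _).1 hr
  obtain ⟨Q, rfl⟩ := (h.range_eq _).1 hs
  exact ⟨P, Q, hs0, e⟩

end Claimed.Agent.R242
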