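import Claimed.Agent.R242.Sch.Defs

/-!
# SCH-GEO-STALK : elementary facts on the subrings `schO x` of the function field

Paper free.  Mathlib: `TopCat.Presheaf.stalkSpecializes`, `stalkSpecializes_comp`,
`germ_stalkSpecializes`, `X.presheaf.exists_germ_eq` / `germ_exist`,
`Scheme.algebraMap_germ_eq_germToFunctionField`, `stalkFunctionFieldAlgebra`
(`algebraMap (stalk x) K = stalkSpecializes (generic ⤳ x)`), `IsFractionRing (stalk x) K`.
-/

set_option autoImplicit false

namespace Claimed.Agent.R242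

open AlgebraicGeometry CategoryTheory Order
open Claims.C0408

variable {X : Scheme.{0}} [IsIntegral X]

theorem sch_generic_mem (U : X.Opens) {x : X} (hx : x ∈ U) : genericPoint X ∈ U :=
  ((genericPoint_spec X).specializes trivial).mem_open U.isOpen hx

theorem sch_algebraMap_germ {U : X.Opens} {x : X} (hx : x ∈ U) (s : Γ(X, U)) :
    algebraMap (X.presheaf.stalk x) X.functionField (X.presheaf.germ U x hx s) =
      X.presheaf.germ U (genericPoint X) (sch_generic_mem U hx) s := by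
  have : Nonempty U := ⟨⟨x, hx⟩⟩
  exact Scheme.algebraMap_germ_eq_germToFunctionField X hx s

/-- `a ∈ O_x` iff `a` is the germ at the generic point of a section on a neighbourhood of `x` -/
theorem sch_mem_iff_germ {x : X} {a : X.functionField} :
    a ∈ schO x ↔ ∃ (U : X.Opens) (hx : x ∈ U) (s : Γ(X, U)),
      X.presheaf.germ U (genericPoint X) (sch_generic_mem U hx) s = a := by
  constructor
  · rintro ⟨t, rfl⟩
    obtain ⟨U, hx, s, rfl⟩ := X.presheaf.exists_germ_eq t
    exact ⟨U, hx, s, (sch_algebraMap_germ hx s).symm⟩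
  · rintro ⟨U, hx, s, rfl⟩
    exact ⟨X.presheaf.germ U x hx s, sch_algebraMap_germ hx s⟩

/-- generalisation enlarges the local ring -/
theorem sch_specializes_le {z x : X} (h : z ⤳ x) : schO x ≤ schO z := by
  intro a ha
  obtain ⟨U, hx, s, rfl⟩ := sch_mem_iff_germ.1 ha
  exact sch_mem_iff_germ.2 ⟨U, h.mem_open U.isOpen hx, s, rfl⟩

/-- an element of `O_x` is regular on a neighbourhood of `x` -/
theorem sch_mem_nhds {x : X} {a : X.functionField} (ha : a ∈ schO x) :
    ∃ U : X.Opens, x ∈ U ∧ a ∈ schG U := by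
  obtain ⟨U, hx, s, rfl⟩ := sch_mem_iff_germ.1 ha
  exact ⟨U, hx, mem_schG.2 fun y hy => sch_mem_iff_germ.2 ⟨U, hy, s, rfl⟩⟩

/-- units of the stalk = units of `schO x` -/
theorem sch_unit_algebraMap {x : X} (s : X.presheaf.stalk x) :
    SchUnit x (algebraMap (X.presheaf.stalk x) X.functionField s) ↔ IsUnit s := by
  have hinj := IsFractionRing.injective (X.presheaf.stalk x) X.functionField
  constructor
  · rintro ⟨-, ⟨t, ht⟩, h0⟩
    refine IsUnit.of_mul_eq_one t (hinj ?_)
    rw [map_mul, ht, map_one, mul_inv_cancel₀ h0]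
  · intro hs
    obtain ⟨t, ht⟩ := hs.exists_right_inv
    have h1 : algebraMap (X.presheaf.stalk x) X.functionField s *
        algebraMap (X.presheaf.stalk x) X.functionField t = 1 := by
      rw [← map_mul, ht, map_one]
    refine ⟨⟨s, rfl⟩, ⟨t, ?_⟩, left_ne_zero_of_mul_eq_one h1⟩
    exact (inv_eq_of_mul_eq_one_right h1).symm

theorem SchUnit.mul {x : X} {a b : X.functionField} (ha : SchUnit x a) (hb : SchUnit x b) :
    SchUnit x (a * b) := by
  refine ⟨(schO x).mul_mem ha.1 hb.1, ?_, mul_ne_zero ha.2.2 hb.2.2⟩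
  rw [mul_inv]
  exact (schO x).mul_mem ha.2.1 hb.2.1

theorem SchUnit.inv {x : X} {a : X.functionField} (ha : SchUnit x a) : SchUnit x a⁻¹ :=
  ⟨ha.2.1, by rw [inv_inv]; exact ha.1, inv_ne_zero ha.2.2⟩

theorem SchUnit.pow {x : X} {a : X.functionField} (ha : SchUnit x a) (k : ℕ) :
    SchUnit x (a ^ k) := by
  refine ⟨(schO x).pow_mem ha.1 k, ?_, pow_ne_zero k ha.2.2⟩
  rw [← inv_pow]
  exact (schO x).pow_mem ha.2.1 k

theorem SchUnit.one (x : X) : SchUnit x (1 : X.functionField) :=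
  ⟨(schO x).one_mem, by rw [inv_one]; exact (schO x).one_mem, one_ne_zero⟩

/-- if a product of two regular elements is a unit, both are -/
theorem SchUnit.of_mul {x : X} {a b : X.functionField} (ha : a ∈ schO x) (hb : b ∈ schO x)
    (h : SchUnit x (a * b)) : SchUnit x a := by
  have ha0 : a ≠ 0 := left_ne_zero_of_mul h.2.2
  have hb0 : b ≠ 0 := right_ne_zero_of_mul h.2.2
  refine ⟨ha, ?_, ha0⟩
  have : a⁻¹ = b * (a * b)⁻¹ := by
    field_simp
  rw [this]
  exact (schO x).mul_mem hb h.2.1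

theorem SchUnit.of_specializes {z x : X} (h : z ⤳ x) {a : X.functionField} (ha : SchUnit x a) :
    SchUnit z a :=
  ⟨sch_specializes_le h ha.1, sch_specializes_le h ha.2.1, ha.2.2⟩

/-- a unit of `O_x` is a unit on a neighbourhood of `x` -/
theorem sch_unit_nhds {x : X} {a : X.functionField} (ha : SchUnit x a) :
    ∃ U : X.Opens, x ∈ U ∧ ∀ y : X, y ∈ U → SchUnit y a := by
  obtain ⟨U, hxU, hU⟩ := sch_mem_nhds ha.1
  obtain ⟨V, hxV, hV⟩ := sch_mem_nhds ha.2.1
  exact ⟨U ⊓ V, ⟨hxU, hxV⟩, fun y hy => ⟨mem_schG.1 hU y hy.1, mem_schG.1 hV y hy.2, ha.2.2⟩⟩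

/-- `O_x` is a local ring: the non units are closed under addition -/
theorem sch_nonunit_add {x : X} {a b : X.functionField} (ha : a ∈ schO x) (hb : b ∈ schO x)
    (ha' : ¬ SchUnit x a) (hb' : ¬ SchUnit x b) : ¬ SchUnit x (a + b) := by
  obtain ⟨s, rfl⟩ := ha
  obtain ⟨t, rfl⟩ := hb
  rw [sch_unit_algebraMap] at ha' hb'
  rw [← map_add, sch_unit_algebraMap]
  exact IsLocalRing.nonunits_add ha' hb'

/-- the constants are regular everywhere -/
theorem sch_const_mem (π : X ⟶ Spec (CommRingCat.of ℂ)) [inst : Algebra ℂ X.functionField]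
    (hπ : inst = fnFieldAlgebra π) (x : X) (c : ℂ) :
    algebraMap ℂ X.functionField c ∈ schO x := by
  subst hπ
  refine sch_mem_iff_germ.2 ⟨⊤, trivial, π.appTop ((Scheme.ΓSpecIso (CommRingCat.of ℂ)).inv c), ?_⟩
  rfl

end Claimed.Agent.R242
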