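import Claimed.Agent.R242.Sch.Frame
import Claimed.Agent.R242.Sch.GeoFin
import Claimed.Agent.R242.Sch.GeoAffineB
import Claimed.Agent.R242.Sch.GeoClosed

/-!
# SCH-LOCAL-A : what ampleness gives at a point; shrinking lemmas

Paper free.  `hN` = normality of the stalks.  Recall (Def_0408)
`IsAmpleDiv L := ∀ E, IsWeilDivisor E → ∃ m₀, ∀ m ≥ m₀, IsGloballyGeneratedDiv (E + m • L)`,
`IsGloballyGeneratedDiv D := ∀ x, ∃ f ≠ 0, (∀ z, coheight z = 1 → 0 ≤ ord f z + D z) ∧
   ∀ z, coheight z = 1 → z ⤳ x → ord f z + D z = 0`.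

* `sch_exists_frame`: `E = 0` (a Weil divisor), `m₀`; `f₁` for `m₀`, `f₂` for `m₀ + 1` at the point `x`;
  `lam := f₁ / f₂` has `ord lam z = - m₀ L z + (m₀ + 1) L z = L z` for `z ⤳ x`.
* `sch_exists_gen`: `E = 0`: for `j ≥ m₀` and every `x` a section of `jL` generating at `x`
  (`sch_sec_of_ord`, `sch_gen_of_ord`).
* `sch_exists_sigma`: `E z := - ∑ i, max 0 (- ord (y i) z)`; it is a Weil divisor
  (`sch_ord_support_finite`; `ord = 0` if `coheight z ≠ 1`), `E ≤ 0`, `ord (y i) z - E z ≥ 0`, and `E z = 0` if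
  `z ⤳ p` (as `y i ∈ schO p ≤ schO z`, `sch_ord_nonneg`).  `k := max m₀ 1`, `σ₀` := the function given by
  `IsGloballyGeneratedDiv (E + k • L)` at `p`.  Then `ord σ₀ + k L ≥ -E ≥ 0`,
  `ord (y i σ₀) + k L = ord (y i) + ord σ₀ + k L ≥ ord (y i) - E ≥ 0` (if `y i = 0` the product is `0`),
  and `ord σ₀ + k L = 0` at `z ⤳ p`.
* `sch_shrink_unit`: `a = r / s` (`sch_affine_frac_unit`), `g := r s`; `SchUnit.of_mul`.
* `sch_shrink_frame`: `B := {z ∈ U | ord lam z ≠ L z}` is finite (`sch_ord_support_finite_affine`, `hL.1`);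
  for `z ∈ B`: `coheight z = 1` (otherwise both sides are `0`: `hL.2`, `ord_eq_zero_of_coheight_neq_one`)
  and `¬ z ⤳ p`; `sch_affine_sep` gives `s_z`; `g := ∏_{z ∈ B} s_z`.  If `y ∈ U`, `SchUnit y g`, `z ⤳ y`,
  `coheight z = 1`: `z ∈ U` (`sch_mem_of_specializes`), `g` is a unit at `z`, so all `s_z'` are units at `z`,
  so `z ∉ B`.
-/

set_option autoImplicit false

namespace Claimed.Agent.R242

open AlgebraicGeometry CategoryTheory Order
open Claims.C0408

variable {X : Scheme.{0}} [IsIntegral X] [IsLocallyNoetherian X]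

omit [IsIntegral X] [IsLocallyNoetherian X] in
theorem schla_weil_zero : IsWeilDivisor (0 : X → ℤ) :=
  ⟨by simp, fun z hz => absurd rfl hz⟩

omit [IsIntegral X] [IsLocallyNoetherian X] in
theorem schla_nsmul (L : X → ℤ) (m : ℕ) (z : X) : (m • L) z = (m : ℤ) * L z := by
  simp

theorem sch_exists_frame {L : X → ℤ} (hample : IsAmpleDiv L) (x : X) :
    ∃ lam : X.functionField, SchFrame L x lam := by
  obtain ⟨m₀, hm⟩ := hample 0 schla_weil_zero
  obtain ⟨f₁, hf₁, -, h₁⟩ := hm m₀ le_rfl x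
  obtain ⟨f₂, hf₂, -, h₂⟩ := hm (m₀ + 1) (Nat.le_succ _) x
  refine ⟨f₁ / f₂, div_ne_zero hf₁ hf₂, fun z hz hzx => ?_⟩
  have e₁ := h₁ z hz hzx
  have e₂ := h₂ z hz hzx
  simp only [Pi.add_apply, Pi.zero_apply, zero_add, schla_nsmul] at e₁ e₂
  rw [sch_ord_div hf₁ hf₂]
  push_cast at e₂
  linarith

theorem sch_exists_gen (hN : ∀ x : X, IsIntegrallyClosed (X.presheaf.stalk x)) {L : X → ℤ}
    (hample : IsAmpleDiv L) :
    ∃ j₀ : ℕ, ∀ j : ℕ, j₀ ≤ j → ∀ x : X, ∃ s : X.functionField, SchSec L j s ∧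
      ∀ lam : X.functionField, SchFrame L x lam → SchUnit x (s * lam ^ j) := by
  obtain ⟨m₀, hm⟩ := hample 0 schla_weil_zero
  refine ⟨m₀, fun j hj x => ?_⟩
  obtain ⟨s, hs, h₁, h₂⟩ := hm j hj x
  simp only [Pi.add_apply, Pi.zero_apply, zero_add, schla_nsmul] at h₁ h₂
  exact ⟨s, sch_sec_of_ord hN h₁, fun lam hl => sch_gen_of_ord hN hs hl h₂⟩

theorem sch_exists_sigma [CompactSpace X]
    (hN : ∀ x : X, IsIntegrallyClosed (X.presheaf.stalk x)) {L : X → ℤ}
    (hample : IsAmpleDiv L) {n : ℕ} (p : X) (y : Fin n → X.functionField)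
    (hy : ∀ i, y i ∈ schO p) :
    ∃ (k : ℕ) (σ₀ : X.functionField), 1 ≤ k ∧ SchSec L k σ₀ ∧ (∀ i, SchSec L k (y i * σ₀)) ∧
      ∀ lam : X.functionField, SchFrame L p lam → SchUnit p (σ₀ * lam ^ k) := by
  let E : X → ℤ := fun z => - ∑ i, max 0 (- Scheme.ord (y i) z)
  have hE0 : ∀ z, (∀ i, 0 ≤ Scheme.ord (y i) z) → E z = 0 := by
    intro z hz
    have : ∑ i, max 0 (- Scheme.ord (y i) z) = 0 :=
      Finset.sum_eq_zero fun i _ => max_eq_left (by have := hz i; linarith)
    simp only [E, this, neg_zero]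
  have hEw : IsWeilDivisor E := by
    constructor
    · refine (Set.finite_iUnion fun i => sch_ord_support_finite (y i)).subset ?_
      intro z hz
      by_contra hcon
      apply hz
      apply hE0
      intro i
      have : z ∉ Function.support (Scheme.ord (y i)) := fun h => hcon (Set.mem_iUnion.2 ⟨i, h⟩)
      rw [Function.notMem_support] at this
      exact this.ge
    · intro z hz
      by_contra hcon
      apply hz
      apply hE0
      intro i
      simp [hcon]
  have hEle : ∀ z i, 0 ≤ Scheme.ord (y i) z - E z := by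
    intro z i
    have h1 : max 0 (- Scheme.ord (y i) z) ≤ ∑ j, max 0 (- Scheme.ord (y j) z) :=
      Finset.single_le_sum (f := fun j => max 0 (- Scheme.ord (y j) z))
        (fun j _ => le_max_left _ _) (Finset.mem_univ i)
    have h2 : - Scheme.ord (y i) z ≤ max 0 (- Scheme.ord (y i) z) := le_max_right _ _
    simp only [E]
    linarith
  have hEneg : ∀ z, E z ≤ 0 := by
    intro z
    have : 0 ≤ ∑ j, max 0 (- Scheme.ord (y j) z) :=
      Finset.sum_nonneg fun j _ => le_max_left _ _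
    simp only [E]
    linarith
  obtain ⟨m₀, hm⟩ := hample E hEw
  obtain ⟨σ₀, hσ, h₁, h₂⟩ := hm (max m₀ 1) (le_max_left _ _) p
  simp only [Pi.add_apply, schla_nsmul] at h₁ h₂
  refine ⟨max m₀ 1, σ₀, le_max_right _ _, ?_, ?_, ?_⟩
  · refine sch_sec_of_ord hN fun z hz => ?_
    have := h₁ z hz
    have := hEneg z
    linarith
  · intro i
    by_cases hyi : y i = 0
    · rw [hyi, zero_mul]
      exact SchSec.zero L _
    refine sch_sec_of_ord hN fun z hz => ?_
    rw [Scheme.ord_mul hyi hσ]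
    have := h₁ z hz
    have := hEle z i
    linarith
  · intro lam hl
    refine sch_gen_of_ord hN hσ hl fun z hz hzp => ?_
    have h3 := h₂ z hz hzp
    rw [hE0 z fun i => sch_ord_nonneg (sch_specializes_le hzp (hy i))] at h3
    linarith

omit [IsLocallyNoetherian X] in
theorem sch_shrink_unit {U : X.Opens} (hU : IsAffineOpen U) {p : X} (hp : p ∈ U)
    {a : X.functionField} (ha : SchUnit p a) :
    ∃ g : X.functionField, g ∈ schG U ∧ SchUnit p g ∧
      ∀ y : X, y ∈ U → SchUnit y g → SchUnit y a := by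
  obtain ⟨r, s, hr, hs, hsu, hru, hars⟩ := sch_affine_frac_unit hU hp ha
  refine ⟨r * s, (schG U).mul_mem hr hs, hru.mul hsu, fun y hy hg => ?_⟩
  have hry := mem_schG.1 hr y hy
  have hsy := mem_schG.1 hs y hy
  have h1 : SchUnit y r := SchUnit.of_mul hry hsy hg
  have h2 : SchUnit y s := SchUnit.of_mul hsy hry (by rwa [mul_comm])
  have h3 : a = r * s⁻¹ := by
    rw [← hars, mul_assoc, mul_inv_cancel₀ h2.2.2, mul_one]
  rw [h3]
  exact h1.mul h2.inv

omit [IsLocallyNoetherian X] in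
/-- a function on `U`, unit at `p`, non unit at finitely many points which do not specialise to `p` -/
theorem schla_sep_finset {U : X.Opens} (hU : IsAffineOpen U) {p : X} (hp : p ∈ U)
    (B : Finset X) (hB : ∀ z ∈ B, z ∈ U ∧ ¬ z ⤳ p) :
    ∃ g : X.functionField, g ∈ schG U ∧ SchUnit p g ∧ ∀ z ∈ B, ¬ SchUnit z g := by
  classical
  induction B using Finset.induction_on with
  | empty => exact ⟨1, (schG U).one_mem, SchUnit.one p, fun z hz => absurd hz (by simp)⟩
  | insert w B _ ih =>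
    obtain ⟨g, hg, hgp, hgB⟩ := ih fun z hz => hB z (Finset.mem_insert_of_mem hz)
    obtain ⟨hwU, hwp⟩ := hB w (Finset.mem_insert_self _ _)
    obtain ⟨s, hs, hsp, hsw⟩ := sch_affine_sep hU hwU hp hwp
    refine ⟨s * g, (schG U).mul_mem hs hg, hsp.mul hgp, fun z hz hu => ?_⟩
    have hzU := (hB z hz).1
    have hsz := mem_schG.1 hs z hzU
    have hgz := mem_schG.1 hg z hzU
    rcases Finset.mem_insert.1 hz with rfl | hzB
    · exact hsw (SchUnit.of_mul hsz hgz hu)
    · exact hgB z hzB (SchUnit.of_mul hgz hsz (by rwa [mul_comm]))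

theorem sch_shrink_frame {L : X → ℤ} (hL : IsWeilDivisor L) {U : X.Opens} (hU : IsAffineOpen U)
    {p : X} (hp : p ∈ U) {lam : X.functionField} (hl : SchFrame L p lam) :
    ∃ g : X.functionField, g ∈ schG U ∧ SchUnit p g ∧
      ∀ y : X, y ∈ U → SchUnit y g → SchFrame L y lam := by
  have hfin : {z : X | z ∈ U ∧ Scheme.ord lam z ≠ L z}.Finite := by
    refine ((sch_ord_support_finite_affine hU lam).union hL.1).subset ?_
    rintro z ⟨hzU, hz⟩
    by_cases h0 : Scheme.ord lam z = 0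
    · right
      rw [Function.mem_support]
      intro h1
      exact hz (by rw [h0, h1])
    · exact Or.inl ⟨hzU, h0⟩
  obtain ⟨g, hg, hgp, hgB⟩ := schla_sep_finset hU hp hfin.toFinset (by
    intro z hz
    rw [Set.Finite.mem_toFinset] at hz
    refine ⟨hz.1, fun hzp => hz.2 ?_⟩
    by_cases hc : coheight z = 1
    · exact hl.2 z hc hzp
    · have h1 : L z = 0 := by
        by_contra h
        exact hc (hL.2 z h)
      rw [h1]
      simp [hc])
  refine ⟨g, hg, hgp, fun y hy hgy => ⟨hl.1, fun z hz hzy => ?_⟩⟩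
  by_contra hne
  exact hgB z (hfin.mem_toFinset.2 ⟨sch_mem_of_specializes U hzy hy, hne⟩)
    (SchUnit.of_specializes hzy hgy)

end Claimed.Agent.R242
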