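import Claimed.Agent.R242.Sch.LocalA
import Claimed.Agent.R242.Sch.ChartOps

/-!
# SCH-LOCAL-B : the local data at a closed point

`SchLocal L n p` = everything the `Model` needs at the closed point `p`.

PROOF of `sch_local_exists` (glue of `ChartOps`, `LocalA`, `GeoPoints`, `Frame`).
1. `sch_chart0` at `p`: `(U₀, C₀, gen₀)`, `y i := gen₀ (inl i) ∈ schG U₀ ≤ schO p`.
2. `sch_exists_frame`: `lam`.  `sch_exists_sigma` with `y`: `k`, `σ₀`; `a := σ₀ * lam ^ k` is a unit at `p`.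
3. `sch_shrink_frame`: `g₁`; `sch_shrink_unit` for `a`: `g₂`; `g := g₁ * g₂ ∈ schG U₀`, unit at `p`, `g ≠ 0`.
4. `SchChart.localize` with `g`: `(U, C₁, gen₁)`, same coordinates, `p ∈ U`, and every `y ∈ U` has `g` (hence
   `g₁`, `g₂`: `SchUnit.of_mul`) a unit at `y`: `lam` is a frame at `y` and `a` is a unit at `y`.
5. `sch_chart_point_of_closed`: `w₁`; `c i := w₁ (inl i)`; then `y i - c i` is NOT a unit at `p`
   (`P = X (inl i) - C (c i)` has `eval w₁ P = 0`).
6. `SchChart.translate` by `c`: `(C, gen)`, `gen (inl i) = y i - c i`.  `sch_chart_point_of_closed` again: `base`;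
   `base (inl i) = eval base (X (inl i)) = 0` because `gen (inl i)` is not a unit at `p`.
7. `σ := Fin.cons σ₀ (fun i => gen (inl i) * σ₀)`; `gen (inl i) * σ₀ = y i * σ₀ - c i * σ₀` is a section
   (`SchSec.sub`, `SchSec.const_mul`).
-/

set_option autoImplicit false

namespace Claimed.Agent.R242

open AlgebraicGeometry CategoryTheory Order MvPolynomial
open Claims.C0408

/-- All the data of the model at the closed point `p`. -/
structure SchLocal {X : Scheme.{0}} [IsIntegral X] [IsLocallyNoetherian X]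
    [Algebra ℂ X.functionField] (L : X → ℤ) (n : ℕ) (p : X) where
  U : X.Opens
  C : Chart n
  gen : Fin n ⊕ Fin C.c → X.functionField
  base : Fin n ⊕ Fin C.c → ℂ
  lam : X.functionField
  k : ℕ
  σ : Fin (n + 1) → X.functionField
  mem : p ∈ U
  chart : SchChart U C gen
  base_mem : base ∈ C.pts
  base_coord : ∀ i, base (Sum.inl i) = 0
  base_spec : ∀ P : MvPolynomial (Fin n ⊕ Fin C.c) ℂ, eval base P ≠ 0 ↔ SchUnit p (aeval gen P)
  frame : ∀ y : X, y ∈ U → SchFrame L y lam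
  k_pos : 1 ≤ k
  σ_sec : ∀ i, SchSec L k (σ i)
  σ_unit : ∀ y : X, y ∈ U → SchUnit y (σ 0 * lam ^ k)
  σ_coord : ∀ i : Fin n, gen (Sum.inl i) * σ 0 = σ i.succ

variable {X : Scheme.{0}} [IsIntegral X] [IsLocallyNoetherian X]

theorem sch_local_exists (π : X ⟶ Spec (CommRingCat.of ℂ)) (n : ℕ) [IsProper π]
    [SmoothOfRelativeDimension n π] [inst : Algebra ℂ X.functionField]
    (hπ : inst = fnFieldAlgebra π) {L : X → ℤ} (hL : IsWeilDivisor L) (hample : IsAmpleDiv L)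
    (p : X) (hp : IsClosed ({p} : Set X)) : Nonempty (SchLocal L n p) := by
  have hcpt : CompactSpace X := sch_compactSpace π
  have hN : ∀ x : X, IsIntegrallyClosed (X.presheaf.stalk x) := sch_stalk_normal π n
  -- 1. a chart at `p`
  obtain ⟨U₀, C₀, gen₀, hpU₀, h₀⟩ := sch_chart0 π n hπ p
  have hy : ∀ i : Fin n, gen₀ (Sum.inl i) ∈ schO p := fun i =>
    schG_le_schO hpU₀ ((h₀.range_eq _).2 ⟨MvPolynomial.X (Sum.inl i), aeval_X _ _⟩)
  -- 2. frame and sections
  obtain ⟨lam, hlam⟩ := sch_exists_frame hample p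
  obtain ⟨k, σ₀, hk, hσ₀, hyσ, hσu⟩ :=
    sch_exists_sigma hN hample p (fun i : Fin n => gen₀ (Sum.inl i)) hy
  have ha := hσu lam hlam
  -- 3. shrinking
  obtain ⟨g₁, hg₁, hg₁u, hg₁f⟩ := sch_shrink_frame hL h₀.affine hpU₀ hlam
  obtain ⟨g₂, hg₂, hg₂u, hg₂f⟩ := sch_shrink_unit h₀.affine hpU₀ ha
  have hg : g₁ * g₂ ∈ schG U₀ := (schG U₀).mul_mem hg₁ hg₂
  have hgu : SchUnit p (g₁ * g₂) := hg₁u.mul hg₂u
  -- 4. localisation
  obtain ⟨U, C₁, gen₁, h₁, hUU₀, hU, hgen₁⟩ := h₀.localize hg hgu.2.2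
  have hpU : p ∈ U := (hU p hpU₀).2 hgu
  have hfr : ∀ y : X, y ∈ U → SchFrame L y lam := fun y hyU =>
    hg₁f y (hUU₀ hyU) (SchUnit.of_mul (schG_le_schO (hUU₀ hyU) hg₁) (schG_le_schO (hUU₀ hyU) hg₂)
      ((hU y (hUU₀ hyU)).1 hyU))
  have hun : ∀ y : X, y ∈ U → SchUnit y (σ₀ * lam ^ k) := fun y hyU =>
    hg₂f y (hUU₀ hyU) (SchUnit.of_mul (schG_le_schO (hUU₀ hyU) hg₂) (schG_le_schO (hUU₀ hyU) hg₁)
      (by rw [mul_comm]; exact (hU y (hUU₀ hyU)).1 hyU))
  -- 5. the point of the chart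
  obtain ⟨w₁, -, hw₁s⟩ := sch_chart_point_of_closed h₁ hpU hp
  -- 6. translation
  obtain ⟨C, gen, h, hgen⟩ := h₁.translate (fun i => w₁ (Sum.inl i))
  obtain ⟨base, hbase, hbs⟩ := sch_chart_point_of_closed h hpU hp
  have hnu : ∀ i : Fin n, ¬ SchUnit p (gen (Sum.inl i)) := by
    intro i hu
    have e : aeval gen₁ (MvPolynomial.X (Sum.inl i) - MvPolynomial.C (w₁ (Sum.inl i)) :
        MvPolynomial (Fin n ⊕ Fin C₁.c) ℂ) = gen (Sum.inl i) := by
      rw [map_sub, aeval_X, aeval_C, hgen]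
    rw [← e] at hu
    exact (hw₁s _).2 hu (by rw [map_sub, eval_X, eval_C, sub_self])
  have hb0 : ∀ i : Fin n, base (Sum.inl i) = 0 := by
    intro i
    by_contra hne
    apply hnu i
    have := (hbs (MvPolynomial.X (Sum.inl i))).1 (by rw [eval_X]; exact hne)
    rwa [aeval_X] at this
  -- 7. assembly
  refine ⟨{ U := U, C := C, gen := gen, base := base, lam := lam, k := k
            σ := Fin.cons σ₀ (fun i => gen (Sum.inl i) * σ₀)
            mem := hpU, chart := h, base_mem := hbase, base_coord := hb0, base_spec := hbs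
            frame := hfr, k_pos := hk, σ_sec := ?_, σ_unit := ?_, σ_coord := ?_ }⟩
  · intro i
    refine Fin.cases ?_ (fun j => ?_) i
    · rw [Fin.cons_zero]
      exact hσ₀
    · rw [Fin.cons_succ, hgen, hgen₁, sub_mul]
      exact (hyσ j).sub (SchSec.const_mul π hπ hσ₀ _)
  · intro y hyU
    rw [Fin.cons_zero]
    exact hun y hyU
  · intro i
    rw [Fin.cons_zero, Fin.cons_succ]

end Claimed.Agent.R242
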