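import Claimed.Agent.R242.Sch.Ample
import Claimed.Agent.R242.Sch.EndB

/-!
# Package SCH: the adapter theorem (`Top.sch_adapter`)
-/

set_option autoImplicit false

namespace Claimed.Agent.R242

open AlgebraicGeometry CategoryTheory Order
open Claims.C0408

theorem sch_adapter_pf (X : Scheme.{0}) [IsIntegral X] [IsLocallyNoetherian X]
    (π : X ⟶ Spec (CommRingCat.of ℂ)) (n : ℕ) [IsProper π]
    [SmoothOfRelativeDimension n π] (L : X → ℤ) (hL : IsWeilDivisor L) (hample : IsAmpleDiv L) :
    letI := fnFieldAlgebra π
    ∃ M : Model n X.functionField, M.IsAmple ∧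
      ∀ m : ℕ, M.Conclusion m → AdjointGloballyGenerated π n (m • L) := by
  letI := fnFieldAlgebra π
  have hN := sch_stalk_normal π n
  haveI := sch_compactSpace π
  let D : ∀ p : SchPt X, SchLocal L n p.1 := fun p =>
    Classical.choice (sch_local_exists π n rfl hL hample p.1 p.2)
  exact ⟨schModel D, schModel_isAmple π rfl D hN hample, fun m h => schModel_conclusion π n D m h⟩

end Claimed.Agent.R242
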