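import Claimed.Agent.R242.Sch.LocalB
import Claimed.Agent.R242.Sch.AlgTop

/-!
# SCH-MODEL : the model of `(X, L)` and its dictionary

`schModel D`, `D p : SchLocal L n p` the chosen local data at the closed points.
All lemmas are unfoldings + `GeoPoints` (`sch_chart_reg_iff`, `sch_chart_unit_iff`,
`sch_chart_closed_of_point`), `SchChart.range_eq`, `Frame` (`sch_change_frame`), `GeoClosed`.

* `schModel_isSec`: (⇐) take `x = p`, `lam = (D p).lam` (`(D p).frame p (D p).mem`).
  (⇒) `x : X`, `lam` a frame at `x`; `sch_exists_closed`: `x ⤳ p`, `p` closed; `x ∈ (D p).U`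
  (`sch_mem_of_specializes`); `s * lam_p ^ j ∈ schO p ≤ schO x`; `lam_p` is a frame at `x`; `sch_change_frame`.
-/

set_option autoImplicit false

noncomputable section

namespace Claimed.Agent.R242

open AlgebraicGeometry CategoryTheory Order MvPolynomial
open Claims.C0408

/-- the closed points of `X` -/
abbrev SchPt (X : Scheme.{0}) : Type := {p : X // IsClosed ({p} : Set X)}

variable {X : Scheme.{0}} [IsIntegral X] [IsLocallyNoetherian X] [Algebra ℂ X.functionField]
  {L : X → ℤ} {n : ℕ}

/-- The model of `(X, L)` attached to a choice of local data. -/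
def schModel (D : ∀ p : SchPt X, SchLocal L n p.1) : Model n X.functionField where
  Pt := SchPt X
  chart p := (D p).C
  gen p := (D p).gen
  gen_ker p := (D p).chart.ker
  gen_frac p := (D p).chart.isKChart.frac
  base p := (D p).base
  base_mem p := (D p).base_mem
  base_coord p := (D p).base_coord
  lam p := (D p).lam
  lam_ne p := ((D p).frame p.1 (D p).mem).1
  der p j := kcDer (D p).chart.isKChart j
  der_coord p i j := kcDer_coord _ i j

variable (D : ∀ p : SchPt X, SchLocal L n p.1)

theorem schModel_regAt (p : SchPt X) (a : X.functionField) :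
    (schModel D).RegAt p a ↔ a ∈ schO p.1 := by
  exact sch_chart_reg_iff (D p).chart (D p).mem (D p).base_spec a

theorem schModel_unitAt (p : SchPt X) (a : X.functionField) :
    (schModel D).UnitAt p a ↔ SchUnit p.1 a := by
  exact sch_chart_unit_iff (D p).chart (D p).mem (D p).base_spec a

/-- every point of every chart is a closed point of `X` -/
theorem schModel_pt [JacobsonSpace X] (p : SchPt X) (w : Fin n ⊕ Fin (D p).C.c → ℂ)
    (hw : w ∈ (D p).C.pts) :
    ∃ q : SchPt X, q.1 ∈ (D p).U ∧
      (∀ a : X.functionField, (schModel D).RegAtPt p w a ↔ a ∈ schO q.1) ∧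
      (∀ a : X.functionField, (schModel D).UnitAtPt p w a ↔ SchUnit q.1 a) := by
  obtain ⟨x, hxU, hcl, hspec⟩ := sch_chart_closed_of_point (D p).chart hw
  exact ⟨⟨x, hcl⟩, hxU, fun a => sch_chart_reg_iff (D p).chart hxU hspec a,
    fun a => sch_chart_unit_iff (D p).chart hxU hspec a⟩

theorem schModel_ring (p : SchPt X) (a : X.functionField) :
    a ∈ (schModel D).ring p ↔ a ∈ schG (D p).U := by
  rw [(D p).chart.range_eq a]
  exact Iff.rfl

theorem schModel_isSec [CompactSpace X] (hN : ∀ x : X, IsIntegrallyClosed (X.presheaf.stalk x))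
    (j : ℕ) (s : X.functionField) : (schModel D).IsSec j s ↔ SchSec L j s := by
  constructor
  · intro h x lam hl
    obtain ⟨p, hcl, hsp⟩ := sch_exists_closed x
    have hxU : x ∈ (D ⟨p, hcl⟩).U := sch_mem_of_specializes _ hsp (D ⟨p, hcl⟩).mem
    have h1 : s * (D ⟨p, hcl⟩).lam ^ j ∈ schO p := (schModel_regAt D ⟨p, hcl⟩ _).1 (h ⟨p, hcl⟩)
    exact sch_change_frame hN ((D ⟨p, hcl⟩).frame x hxU) hl j (sch_specializes_le hsp h1)
  · intro h p
    exact (schModel_regAt D p _).2 (h p.1 (D p).lam ((D p).frame p.1 (D p).mem))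

theorem schModel_jac (x p : SchPt X) :
    (schModel D).jac x p =
      (Matrix.of fun i j => kcDer (D p).chart.isKChart j ((D x).gen (Sum.inl i))).det := rfl

end Claimed.Agent.R242

end
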